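import Vale.Agent.Lib.P113.TM

/-!
# P113: a reversible two-stack simulation of a Turing machine

Next to every written cell a garbage cell recording the old state, old direction and old symbol is
inserted; garbage cells are skipped by the head.
-/

namespace Vale.Agent.Lib.P113

namespace Machine

variable (M : Machine)

/-- Configuration of the reversible machine: state, direction of travel, the cells in front of the
head (current cell first) and the cells behind the head (nearest first). -/
structure RCfg where
  q : M.Q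
  d : Bool
  F : List M.Cell
  B : List M.Cell

variable {M}

/-- one step of the reversible machine -/
def rstep (c : M.RCfg) : M.RCfg :=
  match c.F.headD (Sum.inl 0) with
  | Sum.inr g => ⟨c.q, c.d, c.F.tail, Sum.inr g :: c.B⟩
  | Sum.inl s =>
    if (M.δ c.q s).2.2 = c.d then
      ⟨(M.δ c.q s).1, c.d, c.F.tail, Sum.inl (M.δ c.q s).2.1 :: Sum.inr ((c.q, c.d), s) :: c.B⟩
    else
      ⟨(M.δ c.q s).1, (M.δ c.q s).2.2, c.B,
        Sum.inl (M.δ c.q s).2.1 :: Sum.inr ((c.q, c.d), s) :: c.F.tail⟩

/-- initial configuration of the reversible machine -/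
def rinit (w : List M.S) : M.RCfg := ⟨0, true, w.map Sum.inl, []⟩

/-- forget the garbage cells -/
def strip : List M.Cell → List M.S
  | [] => []
  | Sum.inl s :: l => s :: strip l
  | Sum.inr _ :: l => strip l

/-- the simulation relation -/
def Rel (c' : M.RCfg) (c : M.Cfg) : Prop :=
  c.q = c'.q ∧
    if c'.d then c.R = strip c'.F ∧ c.L = strip c'.B
    else c.R = (strip c'.F).headD 0 :: strip c'.B ∧ c.L = (strip c'.F).tail

theorem strip_map_inl (w : List M.S) : strip (w.map Sum.inl) = w := by
  induction w with
  | nil => rfl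
  | cons a l ih => simp [strip, ih]

theorem rel_init (w : List M.S) : Rel (rinit w) (init w) := by
  simp [Rel, rinit, init, strip_map_inl, strip]

/-- skipping a garbage cell does not change the simulated configuration -/
theorem rel_skip {c' : M.RCfg} {c : M.Cfg} (h : Rel c' c) (g : M.Rc) (F0 : List M.Cell)
    (hF : c'.F = Sum.inr g :: F0) : Rel (rstep c') c ∧ (rstep c').F = F0 ∧ (rstep c').q = c'.q := by
  obtain ⟨q, d, F, B⟩ := c'
  simp only at hF
  subst hF
  refine ⟨?_, rfl, rfl⟩
  simp only [Rel, rstep, List.headD_cons, List.tail_cons, strip] at h ⊢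
  exact h

/-- acting on a data cell simulates one step -/
theorem rel_act {c' : M.RCfg} {c : M.Cfg} (h : Rel c' c) (s : M.S)
    (hF : c'.F.headD (Sum.inl 0) = Sum.inl s) : Rel (rstep c') (step c) := by
  obtain ⟨q, d, F, B⟩ := c'
  obtain ⟨q1, L, R⟩ := c
  simp only at hF
  have hs : (strip F).headD 0 = s ∧ (strip F).tail = strip F.tail := by
    rcases F with _ | ⟨a, F0⟩
    · simp at hF
      simp [strip, hF]
    · simp at hF
      subst hF
      simp [strip]
  obtain ⟨hs1, hs2⟩ := hs
  simp only [Rel] at h
  obtain ⟨hq, h⟩ := h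
  subst hq
  cases d with
  | true =>
    simp only [if_true] at h
    obtain ⟨hR, hL⟩ := h
    subst hR hL
    simp only [rstep, hF, step, hs1]
    cases hd : (M.δ q1 s).2.2 with
    | true => simp [Rel, strip, hs2]
    | false => simp [Rel, strip, hs2]
  | false =>
    simp only [Bool.false_eq_true, if_false] at h
    obtain ⟨hR, hL⟩ := h
    subst hR hL
    simp only [rstep, hF, step, hs1, List.headD_cons, List.tail_cons]
    cases hd : (M.δ q1 s).2.2 with
    | true => simp [Rel, strip, hs2]
    | false => simp [Rel, strip, hs2]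

/-- after finitely many skips the head is on a data cell -/
theorem exists_skip (F : List M.Cell) : ∀ (c' : M.RCfg) (c : M.Cfg), Rel c' c → c'.F = F →
    ∃ m s, Rel (rstep^[m] c') c ∧ (rstep^[m] c').F.headD (Sum.inl 0) = Sum.inl s ∧
      (rstep^[m] c').q = c'.q := by
  induction F with
  | nil =>
    intro c' c h hF
    exact ⟨0, 0, h, by simp [hF], rfl⟩
  | cons a F0 ih =>
    intro c' c h hF
    rcases a with s | g
    · exact ⟨0, s, h, by simp [hF], rfl⟩
    · obtain ⟨h1, h2, h3⟩ := rel_skip h g F0 hF
      obtain ⟨m, s, h4, h5, h6⟩ := ih (rstep c') c h1 h2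
      refine ⟨m + 1, s, ?_, ?_, ?_⟩
      · simpa [Function.iterate_succ_apply] using h4
      · simpa [Function.iterate_succ_apply] using h5
      · rw [Function.iterate_succ_apply, h6, h3]

theorem halts_of_halts (n : ℕ) : ∀ (c' : M.RCfg) (c : M.Cfg), Rel c' c →
    M.halt ((step^[n] c).q) = true → ∃ m, M.halt ((rstep^[m] c').q) = true := by
  induction n with
  | zero =>
    intro c' c h hh
    exact ⟨0, by simpa [← h.1] using hh⟩
  | succ n ih =>
    intro c' c h hh
    obtain ⟨m, s, h1, h2, _⟩ := exists_skip c'.F c' c h rfl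
    have h3 := rel_act h1 s h2
    rw [Function.iterate_succ_apply] at hh
    obtain ⟨m', hm'⟩ := ih _ _ h3 hh
    refine ⟨m' + (1 + m), ?_⟩
    rw [Function.iterate_add_apply, Function.iterate_add_apply]
    simpa using hm'

theorem halts_of_rhalts (m : ℕ) : ∀ (c' : M.RCfg) (c : M.Cfg), Rel c' c →
    M.halt ((rstep^[m] c').q) = true → ∃ n, M.halt ((step^[n] c).q) = true := by
  induction m with
  | zero =>
    intro c' c h hh
    exact ⟨0, by simpa [h.1] using hh⟩
  | succ m ih =>
    intro c' c h hh
    rw [Function.iterate_succ_apply] at hh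
    rcases hF : c'.F.headD (Sum.inl 0) with s | g
    · obtain ⟨n, hn⟩ := ih _ _ (rel_act h s hF) hh
      exact ⟨n + 1, by rw [Function.iterate_succ_apply]; exact hn⟩
    · have : ∃ F0, c'.F = Sum.inr g :: F0 := by
        rcases hc : c'.F with _ | ⟨a, F0⟩
        · simp [hc] at hF
        · simp [hc] at hF
          exact ⟨F0, by rw [hF]⟩
      obtain ⟨F0, hF0⟩ := this
      exact ih _ _ (rel_skip h g F0 hF0).1 hh

/-- The reversible machine reaches a halting state iff `M` halts on `w`. -/
theorem haltsOn_iff (w : List M.S) :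
    M.HaltsOn w ↔ ∃ m, M.halt ((rstep^[m] (rinit w)).q) = true := by
  constructor
  · rintro ⟨n, hn⟩
    exact halts_of_halts n _ _ (rel_init w) hn
  · rintro ⟨m, hm⟩
    exact halts_of_rhalts m _ _ (rel_init w) hm

end Machine

end Vale.Agent.Lib.P113
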