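import Vale.Agent.Lib.P113.Eval
import Vale.Agent.Lib.P113.Rev
open Set Filter Topology
open scoped ContDiff

namespace Vale.Agent.Lib.P113
namespace Machine
variable {M : Machine}

/-- codes of three stacks -/
noncomputable def encR (R : Fin 3 → List M.Sym) : V3 := fun i => enc (R i)

/-- the stack prescribed by the table of an operation -/
def Op.F (o : M.Op) (R : Fin 3 → List M.Sym) : List M.Sym :=
  match o.tab (pref3 (R (oa o.c))) (pref3 (R (ob o.c))) with
  | none => []
  | some (false, pre, j) => pre ++ (R (oa o.c)).drop (min j 3)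
  | some (true, pre, j) => pre ++ (R (ob o.c)).drop (min j 3)

theorem term_zero_left (e : M.Entry) (π ρ : M.Sym3) (u v : ℝ) (h : bl π u = 0) :
    term e π ρ u v = 0 := by
  rcases e with _ | ⟨_ | _, pre, j⟩ <;> simp [term, h]

theorem term_zero_right (e : M.Entry) (π ρ : M.Sym3) (u v : ℝ) (h : bl ρ v = 0) :
    term e π ρ u v = 0 := by
  rcases e with _ | ⟨_ | _, pre, j⟩ <;> simp [term, h]

theorem G_eval (o : M.Op) (R : Fin 3 → List M.Sym) : o.G (encR R) = o.sg * enc (o.F R) := by
  classical
  unfold Op.G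
  congr 1
  rw [Finset.sum_eq_single (pref3 (R (oa o.c)))]
  · rw [Finset.sum_eq_single (pref3 (R (ob o.c)))]
    · unfold Op.F encR
      rcases o.tab (pref3 (R (oa o.c))) (pref3 (R (ob o.c))) with _ | ⟨_ | _, pre, j⟩
      · simp [term, enc]
      · simp only [term, bl_enc, if_true, cfr_enc, popn_enc, pushl_enc, one_mul, mul_one]
      · simp only [term, bl_enc, if_true, cfr_enc, popn_enc, pushl_enc, one_mul, mul_one]
    · intro ρ _ hρ
      apply term_zero_right
      simp only [encR]
      rw [bl_enc, if_neg hρ]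
    · simp
  · intro π _ hπ
    apply Finset.sum_eq_zero
    intro ρ _
    apply term_zero_left
    simp only [encR]
    rw [bl_enc, if_neg hπ]
  · simp

theorem Gdet_eval (R : Fin 3 → List M.Sym) :
    M.Gdet (encR R) = if haltMark (pref3 (R 1)).1 then 3 / 4 else 0 := by
  classical
  unfold Gdet
  rw [Finset.sum_eq_single (pref3 (R 1))]
  · simp only [encR, bl_enc, if_true]
    split_ifs <;> simp
  · intro ρ _ hρ
    simp only [encR]
    rw [bl_enc, if_neg hρ]
    simp
  · simp

/-- the time-one map of a shear -/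
noncomputable def shear (c : Fin 3) (G : V3 → ℝ) (x : V3) : V3 := x + G x • ee c

theorem shear_eq (o : M.Op) (R R' : Fin 3 → List M.Sym) (h1 : ∀ i, i ≠ o.c → R' i = R i)
    (h2 : enc (R' o.c) = enc (R o.c) + o.sg * enc (o.F R)) :
    shear o.c o.G (encR R) = encR R' := by
  funext i
  simp only [shear, G_eval, Pi.add_apply, Pi.smul_apply, ee, smul_eq_mul]
  by_cases hi : i = o.c
  · subst hi
    simp [encR, h2]
  · simp [encR, h1 i hi, Pi.single_apply, hi]

/-- the registers coding a configuration -/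
def regs (c : M.RCfg) : Fin 3 → List M.Sym :=
  ![c.F.map Sum.inl, Sum.inr (c.q, c.d) :: c.B.map Sum.inl, []]


/-- the displacement field of slot `i` of the periodic program (slots 12, 13 are idle) -/
noncomputable def pslot (M : Machine) (i : ℕ) (x : V3) : V3 :=
  if h : i < 12 then M.progG ⟨i, h⟩ x • ee (M.progC ⟨i, h⟩) else 0

theorem pslot_zero (x : V3) : pslot M 0 x = M.Gdet x • ee 2 := rfl

theorem pslot_succ (j : Fin 11) (x : V3) :
    pslot M (j.val + 1) x = (M.ops j).G x • ee (M.ops j).c := by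
  have h : j.val + 1 < 12 := by omega
  simp only [pslot, h, dif_pos]
  rfl

theorem pslot_idle (i : ℕ) (h : 12 ≤ i) (x : V3) : pslot M i x = 0 := by
  simp [pslot, not_lt.2 h]

theorem chain_fwd (c mk : M.Sym) (F0 B pre : List M.Sym) (j : ℕ)
    (h1 : tab1 (pref3 (c :: F0)) (pref3 (mk :: B)) = some (true, pre, 1))
    (h2 : info (pref3 (pre ++ B)) = some (true, c, mk, j))
    (h3 : (pre ++ B).drop (min j 3) = B) :
    ∃ st : Fin 12 → (Fin 3 → List M.Sym), st 0 = ![c :: F0, mk :: B, []] ∧
      st 11 = ![F0, pre ++ B, []] ∧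
      ∀ i : Fin 11, shear (M.ops i).c (M.ops i).G (encR (st i.castSucc)) = encR (st i.succ) := by
  refine ⟨![![c :: F0, mk :: B, []], ![c :: F0, mk :: B, pre ++ B], ![c :: F0, [], pre ++ B],
    ![c :: F0, [], pre ++ B], ![c :: F0, F0, pre ++ B], ![c :: F0, F0, pre ++ B],
    ![[], F0, pre ++ B], ![[], F0, pre ++ B], ![F0, F0, pre ++ B], ![F0, [], pre ++ B],
    ![F0, pre ++ B, pre ++ B], ![F0, pre ++ B, []]], rfl, rfl, ?_⟩
  intro i
  fin_cases i
  all_goals
    apply shear_eq
    · intro i hi
      fin_cases i <;> simp_all [ops]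
    · simp [ops, Op.F, oa, ob, tabF, tabT, h1, h2, h3, enc]


theorem chain_turn (c mk : M.Sym) (F0 B pre : List M.Sym) (j : ℕ)
    (h1 : tab1 (pref3 (c :: F0)) (pref3 (mk :: B)) = some (false, pre, 1))
    (h2 : info (pref3 (pre ++ F0)) = some (false, c, mk, j))
    (h3 : (pre ++ F0).drop (min j 3) = F0) :
    ∃ st : Fin 12 → (Fin 3 → List M.Sym), st 0 = ![c :: F0, mk :: B, []] ∧
      st 11 = ![B, pre ++ F0, []] ∧
      ∀ i : Fin 11, shear (M.ops i).c (M.ops i).G (encR (st i.castSucc)) = encR (st i.succ) := by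
  refine ⟨![![c :: F0, mk :: B, []], ![c :: F0, mk :: B, pre ++ F0], ![c :: F0, mk :: B, pre ++ F0],
    ![[], mk :: B, pre ++ F0], ![[], mk :: B, pre ++ F0], ![B, mk :: B, pre ++ F0],
    ![B, mk :: B, pre ++ F0], ![B, [], pre ++ F0], ![B, [], pre ++ F0], ![B, [], pre ++ F0],
    ![B, pre ++ F0, pre ++ F0], ![B, pre ++ F0, []]], rfl, rfl, ?_⟩
  intro i
  fin_cases i
  all_goals
    apply shear_eq
    · intro i hi
      fin_cases i <;> simp_all [ops]
    · simp [ops, Op.F, oa, ob, tabF, tabT, h1, h2, h3, enc]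

/-- the eleven operations perform one step of the reversible machine (front stack nonempty) -/
theorem chain_cons (q : M.Q) (d : Bool) (a : M.Cell) (F0 B : List M.Cell) :
    ∃ st : Fin 12 → (Fin 3 → List M.Sym), st 0 = regs ⟨q, d, a :: F0, B⟩ ∧
      st 11 = regs (rstep ⟨q, d, a :: F0, B⟩) ∧
      ∀ i : Fin 11, shear (M.ops i).c (M.ops i).G (encR (st i.castSucc)) = encR (st i.succ) := by
  rcases a with s | g
  · by_cases hd : (M.δ q s).2.2 = d
    · have := chain_fwd (M := M) (Sum.inl (Sum.inl s)) (Sum.inr (q, d)) (F0.map Sum.inl)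
        (B.map Sum.inl) [Sum.inr ((M.δ q s).1, d), Sum.inl (Sum.inl (M.δ q s).2.1),
          Sum.inl (Sum.inr ((q, d), s))] 3 (by simp [tab1, pref3, hd]) (by simp [info, pref3])
        (by simp)
      simpa [regs, rstep, hd] using this
    · have := chain_turn (M := M) (Sum.inl (Sum.inl s)) (Sum.inr (q, d)) (F0.map Sum.inl)
        (B.map Sum.inl) [Sum.inr ((M.δ q s).1, (M.δ q s).2.2), Sum.inl (Sum.inl (M.δ q s).2.1),
          Sum.inl (Sum.inr ((q, d), s))] 3 (by simp [tab1, pref3, hd])
        (by simp [info, pref3, Ne.symm hd]) (by simp)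
      simpa [regs, rstep, hd] using this
  · have := chain_fwd (M := M) (Sum.inl (Sum.inr g)) (Sum.inr (q, d)) (F0.map Sum.inl)
      (B.map Sum.inl) [Sum.inr (q, d), Sum.inl (Sum.inr g)] 2 (by simp [tab1, pref3])
      (by simp [info, pref3]) (by simp)
    simpa [regs, rstep] using this


theorem encR_regs_nil (q : M.Q) (d : Bool) (B : List M.Cell) :
    encR (regs (⟨q, d, [], B⟩ : M.RCfg)) = encR (regs ⟨q, d, [Sum.inl 0], B⟩) := by
  funext i
  fin_cases i
  · have : val (Sum.inl (Sum.inl 0) : M.Sym) = 0 := val_bk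
    simp [encR, regs, enc, this]
  · rfl
  · rfl

/-- One period of the program performs one step of the reversible machine on the codes, all
intermediate positions being codes of stacks. -/
theorem period (c : M.RCfg) (hnh : M.halt c.q = false) :
    ∃ st : ℕ → (Fin 3 → List M.Sym), encR (st 0) = encR (regs c) ∧
      encR (st 14) = encR (regs (rstep c)) ∧
      ∀ i < 14, encR (st i) + pslot M i (encR (st i)) = encR (st (i + 1)) := by
  obtain ⟨q, d, F, B⟩ := c
  simp only at hnh
  have key : ∀ (a : M.Cell) (F0 : List M.Cell),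
      ∃ st : ℕ → (Fin 3 → List M.Sym), encR (st 0) = encR (regs ⟨q, d, a :: F0, B⟩) ∧
      encR (st 14) = encR (regs (rstep ⟨q, d, a :: F0, B⟩)) ∧
      ∀ i < 14, encR (st i) + pslot M i (encR (st i)) = encR (st (i + 1)) := by
    intro a F0
    obtain ⟨st', h0, h11, hst⟩ := chain_cons q d a F0 B
    refine ⟨fun i => st' ⟨min (i - 1) 11, by omega⟩, ?_, ?_, ?_⟩
    · show encR (st' 0) = _
      rw [h0]
    · show encR (st' 11) = _
      rw [h11]
    · intro i hi
      rcases Nat.eq_zero_or_pos i with rfl | hpos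
      · show encR (st' 0) + pslot M 0 (encR (st' 0)) = encR (st' 0)
        rw [pslot_zero, Gdet_eval, h0]
        simp [regs, pref3, haltMark, hnh]
      · rcases Nat.lt_or_ge i 12 with h12 | h12
        · obtain ⟨j, rfl⟩ : ∃ j, i = j + 1 := ⟨i - 1, by omega⟩
          have hj : j < 11 := by omega
          have := hst ⟨j, hj⟩
          rw [shear] at this
          have e := pslot_succ (M := M) ⟨j, hj⟩ (encR (st' (Fin.castSucc ⟨j, hj⟩)))
          simp only at e
          have e1 : (⟨min (j + 1 - 1) 11, by omega⟩ : Fin 12) = Fin.castSucc ⟨j, hj⟩ := by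
            ext; simp; omega
          have e2 : (⟨min (j + 1 + 1 - 1) 11, by omega⟩ : Fin 12) = Fin.succ ⟨j, hj⟩ := by
            ext; simp; omega
          simp only [e1, e2]
          rw [e, this]
        · rw [pslot_idle i h12]
          have e1 : (⟨min (i - 1) 11, by omega⟩ : Fin 12) = ⟨min (i + 1 - 1) 11, by omega⟩ := by
            ext; simp; omega
          simp only [e1, add_zero]
  rcases F with _ | ⟨a, F0⟩
  · obtain ⟨st, h1, h2, h3⟩ := key (Sum.inl 0) []
    refine ⟨st, ?_, ?_, h3⟩
    · rw [h1, encR_regs_nil]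
    · rw [h2]; rfl
  · exact key a F0

/-- In a halting configuration the detector lifts the third coordinate to `3/4`. -/
theorem detect (c : M.RCfg) (hh : M.halt c.q = true) :
    (encR (regs c) + pslot M 0 (encR (regs c))) 2 = 3 / 4 := by
  rw [pslot_zero, Gdet_eval]
  simp [regs, pref3, haltMark, hh, encR, enc, ee]

end Machine
end Vale.Agent.Lib.P113
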