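import Vale.Agent.Lib.P113.Flow
import Vale.Agent.Lib.P113.Chain
open Set Filter Topology
open scoped ContDiff

namespace Vale.Agent.Lib.P113

theorem pls_fract (z : ℤ) (θ : ℝ) (h0 : 0 ≤ θ) (h1 : θ ≤ 1) :
    pls (14 * Int.fract (((z : ℝ) + θ) / 14)) = if z % 14 = 0 then pls θ else 0 := by
  set q := z / 14 with hq
  set r := z % 14 with hr
  have hz : z = 14 * q + r := (Int.mul_ediv_add_emod z 14).symm
  have hr0 : 0 ≤ r := Int.emod_nonneg _ (by norm_num)
  have hr1 : r < 14 := Int.emod_lt_of_pos _ (by norm_num)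
  have hzR : (z : ℝ) = 14 * q + r := by exact_mod_cast hz
  have hr0R : (0 : ℝ) ≤ r := by exact_mod_cast hr0
  have hr1R : (r : ℝ) + 1 ≤ 14 := by exact_mod_cast hr1
  rcases eq_or_lt_of_le h1 with rfl | hlt
  · -- θ = 1
    have e0 : pls 1 = 0 := pls_zero_of_one_le le_rfl
    rw [e0, ite_self]
    rcases eq_or_lt_of_le hr1R with h13 | h13
    · have : ((z : ℝ) + 1) / 14 = ((q + 1 : ℤ) : ℝ) := by
        push_cast; rw [hzR]; linarith
      rw [this, Int.fract_intCast]
      simp [pls_zero_of_nonpos]
    · have : Int.fract (((z : ℝ) + 1) / 14) = ((r : ℝ) + 1) / 14 := by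
        rw [Int.fract_eq_iff]
        refine ⟨by positivity, by linarith, q, ?_⟩
        rw [hzR]; ring
      rw [this]
      apply pls_zero_of_one_le
      linarith
  · have : Int.fract (((z : ℝ) + θ) / 14) = ((r : ℝ) + θ) / 14 := by
      rw [Int.fract_eq_iff]
      refine ⟨by positivity, by linarith, q, ?_⟩
      rw [hzR]; ring
    rw [this]
    have e : 14 * (((r : ℝ) + θ) / 14) = r + θ := by ring
    rw [e]
    split_ifs with h
    · rw [h]; simp
    · apply pls_zero_of_one_le
      have : 1 ≤ r := by omega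
      have : (1 : ℝ) ≤ r := by exact_mod_cast this
      linarith

theorem pulse_eval (j n : ℕ) (hj : j < 12) (t : ℝ) (h0 : (n : ℝ) ≤ t) (h1 : t ≤ n + 1) :
    pulse j t = if 2 ≤ n ∧ (n - 2) % 14 = j then pls (t - n) else 0 := by
  unfold pulse
  have e : t - 2 - j = (((n : ℤ) - 2 - j : ℤ) : ℝ) + (t - n) := by push_cast; ring
  rw [e, pls_fract _ _ (by linarith) (by linarith)]
  congr 1
  apply propext
  constructor
  · intro h
    omega
  · rintro ⟨h2, h3⟩
    omega

namespace Machine
variable {M : Machine}

/-- the displacement field of the time slot `[n, n+1]` -/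
noncomputable def slotW (M : Machine) (w : List M.S) (n : ℕ) (x : V3) : V3 :=
  if n = 0 then M.encIn w • ee 0 else if n = 1 then M.encMk • ee 1 else pslot M ((n - 2) % 14) x

theorem vel_slot (w : List M.S) (n : ℕ) (t : ℝ) (h0 : (n : ℝ) ≤ t) (h1 : t ≤ n + 1) (x : V3) :
    M.vel w t x = pls (t - n) • slotW M w n x := by
  unfold vel
  have hsum : ∑ j : Fin 12, pulse j t • (M.progG j x • ee (M.progC j))
      = if 2 ≤ n then pls (t - n) • pslot M ((n - 2) % 14) x else 0 := by
    have : ∀ j : Fin 12, pulse j t • (M.progG j x • ee (M.progC j))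
        = if 2 ≤ n ∧ (n - 2) % 14 = j then pls (t - n) • (M.progG j x • ee (M.progC j)) else 0 := by
      intro j
      rw [pulse_eval j n j.2 t h0 h1]
      split_ifs <;> simp
    simp_rw [this]
    by_cases hn : 2 ≤ n
    · simp only [hn, true_and, if_true]
      by_cases hlt : (n - 2) % 14 < 12
      · rw [Finset.sum_eq_single ⟨(n - 2) % 14, hlt⟩]
        · simp [pslot, hlt]
        · intro j _ hj
          rw [if_neg]
          intro h
          exact hj (Fin.ext h.symm)
        · simp
      · rw [pslot_idle _ (not_lt.1 hlt), smul_zero]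
        apply Finset.sum_eq_zero
        intro j _
        rw [if_neg]
        intro h
        exact hlt (h ▸ j.2)
    · simp [hn]
  rw [hsum]
  rcases n with _ | _ | n
  · simp only [Nat.cast_zero, zero_add, sub_zero] at h0 h1 ⊢
    rw [pls_zero_of_nonpos (by linarith : t - 1 ≤ 0)]
    simp [slotW]
  · simp only [zero_add, Nat.cast_one] at h0 h1 ⊢
    rw [pls_zero_of_one_le h0]
    simp [slotW]
  · push_cast at h0 h1 ⊢
    have hn0 : (0 : ℝ) ≤ n := Nat.cast_nonneg n
    rw [pls_zero_of_one_le (by linarith), pls_zero_of_one_le (by linarith)]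
    simp [slotW]


theorem oa_ne (c : Fin 3) : oa c ≠ c := by fin_cases c <;> decide
theorem ob_ne (c : Fin 3) : ob c ≠ c := by fin_cases c <;> decide

theorem Op.G_congr (o : M.Op) (x y : V3) (h : ∀ i, i ≠ o.c → x i = y i) : o.G x = o.G y := by
  unfold Op.G
  rw [h _ (oa_ne o.c), h _ (ob_ne o.c)]

theorem isShear_smul_ee (G : V3 → ℝ) (c : Fin 3) (h : ∀ x y : V3, (∀ i, i ≠ c → x i = y i) → G x = G y) :
    IsShear (fun x => G x • ee c) := by
  refine ⟨c, ?_, ?_⟩
  · intro x i hi
    simp [ee, hi]
  · intro x y hxy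
    simp only [h x y hxy]

theorem isShear_pslot (i : ℕ) : IsShear (pslot M i) := by
  rcases Nat.lt_or_ge i 12 with h | h
  · rcases Nat.eq_zero_or_pos i with rfl | hpos
    · have : pslot M 0 = fun x => M.Gdet x • ee 2 := by funext x; exact pslot_zero x
      rw [this]
      apply isShear_smul_ee
      intro x y hxy
      unfold Gdet
      rw [hxy 1 (by decide)]
    · obtain ⟨j, rfl⟩ : ∃ j, i = j + 1 := ⟨i - 1, by omega⟩
      have hj : j < 11 := by omega
      have : pslot M (j + 1) = fun x => (M.ops ⟨j, hj⟩).G x • ee (M.ops ⟨j, hj⟩).c := by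
        funext x; exact pslot_succ ⟨j, hj⟩ x
      rw [this]
      apply isShear_smul_ee
      exact (M.ops ⟨j, hj⟩).G_congr
  · have : pslot M i = fun x => (0 : ℝ) • ee 0 := by
      funext x; rw [pslot_idle i h]; simp
    rw [this]
    exact isShear_smul_ee (fun _ => 0) 0 (fun _ _ _ => rfl)

theorem isShear_slotW (w : List M.S) (n : ℕ) : IsShear (slotW M w n) := by
  unfold slotW
  by_cases h0 : n = 0
  · simp only [h0, if_true]
    exact isShear_smul_ee (fun _ => M.encIn w) 0 (fun _ _ _ => rfl)
  · by_cases h1 : n = 1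
    · simp only [h1, if_true]
      exact isShear_smul_ee (fun _ => M.encMk) 1 (fun _ _ _ => rfl)
    · simp only [h0, h1, if_false]
      exact isShear_pslot _

/-- the positions of the particle at integer times -/
noncomputable def orb (M : Machine) (w : List M.S) : ℕ → V3 := orbit (slotW M w) aStar

theorem orb_succ (w : List M.S) (n : ℕ) : orb M w (n + 1) = orb M w n + slotW M w n (orb M w n) := rfl

theorem orb_zero (w : List M.S) : orb M w 0 = encR (fun _ => ([] : List M.Sym)) := by
  funext i; simp [orb, orbit, aStar, encR, enc]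

theorem orb_one (w : List M.S) :
    orb M w 1 = encR ![w.map fun s => (Sum.inl (Sum.inl s) : M.Sym), [], []] := by
  rw [orb_succ, orb_zero]
  funext i
  fin_cases i <;> simp [slotW, encR, enc, ee, encIn]

theorem orb_two (w : List M.S) : orb M w 2 = encR (regs (rinit w)) := by
  rw [orb_succ, orb_one]
  funext i
  fin_cases i <;> simp [slotW, encR, enc, ee, encMk, regs, rinit, Function.comp_def]

theorem orb_period (w : List M.S) (m : ℕ) (c : M.RCfg) (h : orb M w (2 + 14 * m) = encR (regs c))
    (hnh : M.halt c.q = false) :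
    orb M w (2 + 14 * (m + 1)) = encR (regs (rstep c)) ∧
      ∀ i ≤ 14, ∃ R : Fin 3 → List M.Sym, orb M w (2 + 14 * m + i) = encR R := by
  obtain ⟨st, h0, h14, hst⟩ := period c hnh
  have key : ∀ i ≤ 14, orb M w (2 + 14 * m + i) = encR (st i) := by
    intro i
    induction i with
    | zero => intro _; rw [add_zero, h, h0]
    | succ i ih =>
      intro hi
      have hi' : i < 14 := by omega
      rw [← add_assoc, orb_succ, ih (by omega)]
      have : slotW M w (2 + 14 * m + i) = pslot M i := by
        funext x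
        have e : (2 + 14 * m + i - 2) % 14 = i := by
          have : 2 + 14 * m + i - 2 = i + 14 * m := by omega
          rw [this, Nat.add_mul_mod_self_left, Nat.mod_eq_of_lt hi']
        have e0 : 2 + 14 * m + i ≠ 0 := by omega
        have e1 : 2 + 14 * m + i ≠ 1 := by omega
        simp only [slotW, e, e0, e1, if_false]
      rw [this, hst i hi']
  refine ⟨?_, fun i hi => ⟨st i, key i hi⟩⟩
  have := key 14 le_rfl
  rw [h14] at this
  rw [← this]
  congr 1

theorem orb_cfg (w : List M.S) (m : ℕ) (hnh : ∀ i < m, M.halt ((rstep^[i] (rinit w)).q) = false) :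
    orb M w (2 + 14 * m) = encR (regs (rstep^[m] (rinit w))) := by
  induction m with
  | zero => simpa using orb_two w
  | succ m ih =>
    have h1 := ih (fun i hi => hnh i (by omega))
    have h2 := (orb_period w m _ h1 (hnh m (by omega))).1
    rw [h2, Function.iterate_succ_apply']

theorem orb_coded (w : List M.S) (hnh : ∀ i, M.halt ((rstep^[i] (rinit w)).q) = false) (n : ℕ) :
    ∃ R : Fin 3 → List M.Sym, orb M w n = encR R := by
  rcases n with _ | _ | n
  · exact ⟨_, orb_zero w⟩
  · exact ⟨_, orb_one w⟩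
  · have h1 := orb_cfg w (n / 14) (fun i _ => hnh i)
    have h2 := (orb_period w (n / 14) _ h1 (hnh _)).2 (n % 14) (by omega)
    have e : 2 + 14 * (n / 14) + n % 14 = n + 1 + 1 := by omega
    rwa [e] at h2

theorem main_dyn (w : List M.S) (X : ℝ → V3) (hX : IsTraj (M.vel w) aStar X) :
    (∃ t, 0 ≤ t ∧ X t ∈ target) ↔ M.HaltsOn w := by
  have hslot := traj_slot (u := M.vel w) (W := slotW M w) (a := aStar)
    (fun n t h0 h1 x => vel_slot w n t h0 h1 x) (isShear_slotW w) hX
  rw [haltsOn_iff]
  constructor
  · rintro ⟨t, ht, htar⟩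
    by_contra hcon
    have hnh : ∀ i, M.halt ((rstep^[i] (rinit w)).q) = false := by
      intro i
      by_contra h
      exact hcon ⟨i, by simpa using h⟩
    set n := ⌊t⌋₊ with hn
    have h1 : (n : ℝ) ≤ t := Nat.floor_le ht
    have h2 : t ≤ n + 1 := (Nat.lt_floor_add_one t).le
    have hXt := hslot n t h1 h2
    obtain ⟨R, hR⟩ := orb_coded w hnh n
    obtain ⟨R', hR'⟩ := orb_coded w hnh (n + 1)
    have hW : slotW M w n (orb M w n) = encR R' - encR R := by
      rw [← hR', ← hR, orb_succ]; abel
    have hX2 : X t 2 = (1 - stp (t - n)) * enc (R 2) + stp (t - n) * enc (R' 2) := by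
      rw [hXt]
      show (orb M w n + stp (t - n) • slotW M w n (orb M w n)) 2 = _
      rw [hW, hR]
      simp [encR]
      ring
    have hs0 := stp_nonneg (t - n)
    have hs1 := stp_le_one (t - n)
    have ha0 := enc_nonneg (R 2); have ha1 := enc_le (R 2)
    have hb0 := enc_nonneg (R' 2); have hb1 := enc_le (R' 2)
    have hlo : 0 ≤ X t 2 := by
      rw [hX2]
      have : 0 ≤ 1 - stp (t - n) := by linarith
      positivity
    have hhi : X t 2 ≤ 1 / 2 := by
      rw [hX2]
      nlinarith
    have hfr : Int.fract (X t 2) = X t 2 := by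
      rw [Int.fract_eq_iff]
      exact ⟨hlo, by linarith, 0, by simp⟩
    simp only [target, mem_ofPred_eq, hfr, mem_Ioo] at htar
    linarith [htar.1]
  · intro hex
    classical
    set m := Nat.find hex with hm
    have hmh : M.halt ((rstep^[m] (rinit w)).q) = true := Nat.find_spec hex
    have hnh : ∀ i < m, M.halt ((rstep^[i] (rinit w)).q) = false := by
      intro i hi
      have := Nat.find_min hex hi
      simpa using this
    have h1 := orb_cfg w m hnh
    have h2 := detect _ hmh
    have h3 : orb M w (2 + 14 * m + 1) 2 = 3 / 4 := by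
      rw [orb_succ, h1]
      have : slotW M w (2 + 14 * m) = pslot M 0 := by
        funext x
        have e : (2 + 14 * m - 2) % 14 = 0 := by
          have : 2 + 14 * m - 2 = 14 * m := by omega
          rw [this]; simp
        have e0 : 2 + 14 * m ≠ 0 := by omega
        have e1 : 2 + 14 * m ≠ 1 := by omega
        simp only [slotW, e, e0, e1, if_false]
      rw [this]
      exact h2
    refine ⟨((2 + 14 * m : ℕ) : ℝ) + 1, by positivity, ?_⟩
    have hXt := hslot (2 + 14 * m) (((2 + 14 * m : ℕ) : ℝ) + 1) (by linarith) le_rfl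
    rw [add_sub_cancel_left, stp_one le_rfl, one_smul] at hXt
    have : X (((2 + 14 * m : ℕ) : ℝ) + 1) 2 = 3 / 4 := by
      rw [hXt]; exact h3
    simp only [target, mem_ofPred_eq, this]
    have hfr : Int.fract (3 / 4 : ℝ) = 3 / 4 := by
      rw [Int.fract_eq_iff]
      exact ⟨by norm_num, by norm_num, 0, by simp⟩
    rw [hfr]
    constructor <;> norm_num

theorem exists_traj (w : List M.S) : IsTraj (M.vel w) aStar (traj (slotW M w) aStar) :=
  traj_isTraj (fun n t h0 h1 x => vel_slot w n t h0 h1 x) (isShear_slotW w)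

end Machine
end Vale.Agent.Lib.P113
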