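import Vale.Agent.Lib.P113.NS
open Set Filter Topology MeasureTheory
open scoped ContDiff

namespace Vale.Agent.Lib.P113

theorem cfr_coord (x : V3) (i a : Fin 3) : cfr ((x + ee i) a) = cfr (x a) := by
  by_cases h : a = i
  · subst h
    simp [ee, cfr_add_one]
  · simp [ee, h]

theorem IsShear.smul {W : V3 → V3} (h : IsShear W) (a : ℝ) : IsShear (fun x => a • W x) := by
  obtain ⟨c, h0, h1⟩ := h
  refine ⟨c, fun x i hi => by simp [h0 x i hi], fun x y hxy => by simp only [h1 x y hxy]⟩

theorem pulse_add (j : ℕ) (t : ℝ) : pulse j (t + 14) = pulse j t := by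
  unfold pulse
  have : (t + 14 - 2 - j) / 14 = (t - 2 - j) / 14 + 1 := by ring
  rw [this, Int.fract_add_one]

namespace Machine
variable {M : Machine}

theorem bl_coord (π : M.Sym3) (x : V3) (i a : Fin 3) : bl π ((x + ee i) a) = bl π (x a) := by
  unfold bl; rw [cfr_coord]

theorem term_coord (e : M.Entry) (π ρ : M.Sym3) (x : V3) (i a b : Fin 3) :
    term e π ρ ((x + ee i) a) ((x + ee i) b) = term e π ρ (x a) (x b) := by
  rcases e with _ | ⟨_ | _, pre, j⟩ <;> simp only [term, bl_coord, cfr_coord]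

theorem progG_per (j : Fin 12) : Per (M.progG j) := by
  intro x i
  refine Fin.cases ?_ (fun l => ?_) j
  · show M.Gdet _ = M.Gdet _
    unfold Gdet
    simp only [bl_coord]
  · show (M.ops l).G _ = (M.ops l).G _
    unfold Op.G
    simp only [term_coord]

theorem vel_per (w : List M.S) (t : ℝ) : Per (M.vel w t) := by
  intro x i
  unfold vel
  simp only [progG_per _ x i]

theorem vel_isShear (w : List M.S) (t : ℝ) (ht : 0 ≤ t) : IsShear (M.vel w t) := by
  have h1 : ((⌊t⌋₊ : ℕ) : ℝ) ≤ t := Nat.floor_le ht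
  have h2 : t ≤ (⌊t⌋₊ : ℕ) + 1 := (Nat.lt_floor_add_one t).le
  have : M.vel w t = fun x => pls (t - (⌊t⌋₊ : ℕ)) • slotW M w ⌊t⌋₊ x := by
    funext x
    exact vel_slot w _ t h1 h2 x
  rw [this]
  exact (isShear_slotW w _).smul _

theorem vel_zero (w : List M.S) (x : V3) : M.vel w 0 x = 0 := by
  rw [vel_slot w 0 0 (by simp) (by simp) x]
  simp [pls_zero_of_nonpos]

theorem force_eq (ν : ℝ) (w : List M.S) : M.force ν w = forceOf ν (M.vel w) := rfl

theorem vel_tail (w w' : List M.S) (t : ℝ) (ht : 2 ≤ t) (x : V3) : M.vel w t x = M.vel w' t x := by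
  unfold vel
  rw [pls_zero_of_one_le (by linarith), pls_zero_of_one_le (by linarith)]
  simp

theorem vel_add (w : List M.S) (t : ℝ) (ht : 2 ≤ t) (x : V3) : M.vel w (t + 14) x = M.vel w t x := by
  unfold vel
  rw [pls_zero_of_one_le (by linarith), pls_zero_of_one_le (by linarith),
    pls_zero_of_one_le (by linarith : (1:ℝ) ≤ t), pls_zero_of_one_le (by linarith : (1:ℝ) ≤ t - 1)]
  simp only [pulse_add]

theorem force_contDiff (ν : ℝ) (w : List M.S) :
    ContDiff ℝ ∞ (fun p : ℝ × V3 => M.force ν w p.1 p.2) :=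
  forceOf_contDiff ν _ (vel_contDiff w)

theorem force_per (ν : ℝ) (w : List M.S) (t : ℝ) : Per (M.force ν w t) := by
  intro x i
  rw [force_eq]
  have := forceOf_congr ν (M.vel w) (M.vel w) t 0 x (ee i)
    (Eventually.of_forall fun p => by simp only [add_zero]; exact (vel_per w p.1 p.2 i).symm)
  rw [add_zero] at this
  exact this.symm

theorem nhds_time (t : ℝ) (x : V3) (ht : 3 ≤ t) : ∀ᶠ p : ℝ × V3 in 𝓝 (t, x), 2 ≤ p.1 := by
  have : ∀ᶠ s in 𝓝 t, 2 ≤ s := by
    filter_upwards [Ioi_mem_nhds (by linarith : (2 : ℝ) < t)] with s hs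
    exact le_of_lt hs
  exact (continuous_fst.tendsto (t, x)).eventually this

theorem force_tail (ν : ℝ) (w w' : List M.S) (t : ℝ) (ht : 3 ≤ t) (x : V3) :
    M.force ν w t x = M.force ν w' t x := by
  rw [force_eq, force_eq]
  have := forceOf_congr ν (M.vel w) (M.vel w') t 0 x 0 (by
    filter_upwards [nhds_time t x ht] with p hp
    simp only [add_zero]
    exact vel_tail w w' p.1 hp p.2)
  simpa using this

theorem force_add (ν : ℝ) (w : List M.S) (t : ℝ) (ht : 3 ≤ t) (x : V3) :
    M.force ν w (t + 14) x = M.force ν w t x := by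
  rw [force_eq]
  have := forceOf_congr ν (M.vel w) (M.vel w) t 14 x 0 (by
    filter_upwards [nhds_time t x ht] with p hp
    simp only [add_zero]
    exact (vel_add w p.1 hp p.2).symm)
  simpa using this.symm

theorem vel_classical (ν : ℝ) (w : List M.S) (T : ℝ) :
    ClassicalSol ν (M.force ν w) T (M.vel w) (fun _ _ => 0) :=
  classical_of_shear ν (M.vel w) (vel_contDiff w) (vel_per w) (vel_isShear w) (vel_zero w) T

end Machine

theorem target_eq : target = ⋃ n : ℤ, (fun y : V3 => y 2) ⁻¹' Ioo ((n : ℝ) + 7 / 10) (n + 8 / 10) := by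
  ext x
  simp only [target, mem_ofPred_eq, mem_iUnion, mem_preimage, mem_Ioo]
  constructor
  · rintro ⟨h1, h2⟩
    refine ⟨⌊x 2⌋, ?_, ?_⟩
    · have := Int.self_sub_floor (x 2); linarith
    · have := Int.self_sub_floor (x 2); linarith
  · rintro ⟨n, h1, h2⟩
    have : Int.fract (x 2) = x 2 - n := by
      rw [Int.fract_eq_iff]
      exact ⟨by linarith, by linarith, n, by ring⟩
    rw [this]
    constructor <;> linarith

theorem target_isOpen : IsOpen target := by
  rw [target_eq]
  exact isOpen_iUnion fun n => isOpen_Ioo.preimage (continuous_apply 2)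

theorem target_per (x : V3) (i : Fin 3) : x + ee i ∈ target ↔ x ∈ target := by
  have : Int.fract ((x + ee i) 2) = Int.fract (x 2) := by
    by_cases h : (2 : Fin 3) = i
    · subst h
      simp [ee]
    · simp [ee, h]
  simp only [target, mem_ofPred_eq, this]

end Vale.Agent.Lib.P113
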