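import Vale.Agent.Lib.P113.VelSmooth
open Set Filter Topology MeasureTheory
open scoped ContDiff

namespace Vale.Agent.Lib.P113

/-- the force `∂ₜ u - ν Δ u` -/
noncomputable def forceOf (ν : ℝ) (u : ℝ → V3 → V3) (t : ℝ) (x : V3) : V3 :=
  fderiv ℝ (fun p : ℝ × V3 => u p.1 p.2) (t, x) (1, 0)
    - ν • ∑ i : Fin 3, fderiv ℝ (fun q : ℝ × V3 =>
        fderiv ℝ (fun p : ℝ × V3 => u p.1 p.2) q (0, ee i)) (t, x) (0, ee i)

theorem contDiff_fderiv_apply {E : Type*} [NormedAddCommGroup E] [NormedSpace ℝ E]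
    {U : ℝ × V3 → E} (hU : ContDiff ℝ ∞ U) (v : ℝ × V3) :
    ContDiff ℝ ∞ (fun q => fderiv ℝ U q v) :=
  (hU.fderiv_right (m := ∞) (by simp)).clm_apply contDiff_const

theorem hasDerivAt_time {E : Type*} [NormedAddCommGroup E] [NormedSpace ℝ E]
    {U : ℝ × V3 → E} (hU : ContDiff ℝ ∞ U) (t : ℝ) (x : V3) :
    HasDerivAt (fun s => U (s, x)) (fderiv ℝ U (t, x) (1, 0)) t := by
  have h1 : HasFDerivAt U (fderiv ℝ U (t, x)) (t, x) :=
    ((hU.differentiable (by simp)) (t, x)).hasFDerivAt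
  have h2 : HasDerivAt (fun s : ℝ => (s, x)) ((1 : ℝ), (0 : V3)) t :=
    (hasDerivAt_id t).prodMk (hasDerivAt_const t x)
  exact h1.comp_hasDerivAt t h2

theorem hasDerivAt_space {E : Type*} [NormedAddCommGroup E] [NormedSpace ℝ E]
    {U : ℝ × V3 → E} (hU : ContDiff ℝ ∞ U) (t : ℝ) (x : V3) (i : Fin 3) :
    HasDerivAt (fun s : ℝ => U (t, x + s • ee i)) (fderiv ℝ U (t, x) (0, ee i)) 0 := by
  have h1 : HasFDerivAt U (fderiv ℝ U (t, x)) (t, x + (0 : ℝ) • ee i) := by
    rw [zero_smul, add_zero]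
    exact ((hU.differentiable (by simp)) (t, x)).hasFDerivAt
  have h3 : HasDerivAt (fun s : ℝ => x + s • ee i) (ee i) 0 := by
    have := ((hasDerivAt_id (0 : ℝ)).smul_const (ee i)).const_add x
    simpa using this
  have h2 : HasDerivAt (fun s : ℝ => (t, x + s • ee i)) ((0 : ℝ), ee i) 0 :=
    (hasDerivAt_const (0 : ℝ) t).prodMk h3
  exact h1.comp_hasDerivAt (0 : ℝ) h2

theorem classical_of_shear (ν : ℝ) (u : ℝ → V3 → V3)
    (hu : ContDiff ℝ ∞ (fun p : ℝ × V3 => u p.1 p.2)) (hper : ∀ t, Per (u t))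
    (hsh : ∀ t, 0 ≤ t → IsShear (u t)) (h0 : ∀ x, u 0 x = 0) (T : ℝ) :
    ClassicalSol ν (forceOf ν u) T u (fun _ _ => 0) := by
  set U : ℝ × V3 → V3 := fun p => u p.1 p.2 with hUdef
  have hD : ∀ v, ContDiff ℝ ∞ (fun q => fderiv ℝ U q v) := fun v => contDiff_fderiv_apply hu v
  have hdu : ∀ i t x, HasDerivAt (fun s : ℝ => u t (x + s • ee i)) (fderiv ℝ U (t, x) (0, ee i)) 0 :=
    fun i t x => hasDerivAt_space hu t x i
  -- the derivative in the shear direction vanishes, the other components vanish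
  have hkey : ∀ t, 0 ≤ t → ∃ c : Fin 3, (∀ x i, i ≠ c → u t x i = 0) ∧
      (∀ x, fderiv ℝ U (t, x) (0, ee c) = 0) ∧
      (∀ x i, i ≠ c → fderiv ℝ U (t, x) (0, ee i) i = 0) := by
    intro t ht
    obtain ⟨c, hc0, hcdep⟩ := hsh t ht
    refine ⟨c, hc0, ?_, ?_⟩
    · intro x
      have h1 := hdu c t x
      have h2 : (fun s : ℝ => u t (x + s • ee c)) = fun _ => u t x := by
        funext s
        apply hcdep
        intro i hi
        simp [ee, hi]
      rw [h2] at h1
      exact h1.unique (hasDerivAt_const _ _)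
    · intro x i hi
      have h1 := (hasDerivAt_pi.1 (hdu i t x)) i
      have h2 : (fun s : ℝ => u t (x + s • ee i) i) = fun _ => 0 := by
        funext s
        exact hc0 _ i hi
      rw [h2] at h1
      exact h1.unique (hasDerivAt_const _ _)
  refine ⟨fun t x => fderiv ℝ U (t, x) (1, 0), fun i t x => fderiv ℝ U (t, x) (0, ee i),
    fun i t x => fderiv ℝ (fun q => fderiv ℝ U q (0, ee i)) (t, x) (0, ee i), fun _ _ _ => 0, ?_⟩
  refine
    { per_u := fun t _ => hper t
      per_p := fun t _ x i => rfl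
      cont_u := hu.continuous.continuousOn
      cont_ut := (hD _).continuous.continuousOn
      cont_du := fun i => (hD _).continuous.continuousOn
      cont_ddu := fun i => (contDiff_fderiv_apply (hD _) _).continuous.continuousOn
      cont_p := continuousOn_const
      cont_dp := fun i => continuousOn_const
      hut := fun t _ x => (hasDerivAt_time hu t x).hasDerivWithinAt
      hdu := fun i t _ x => hdu i t x
      hddu := fun i t _ x => hasDerivAt_space (hD _) t x i
      hdp := fun i t _ x => hasDerivAt_const _ _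
      mom := ?_
      div := ?_
      init := h0
      mean := fun t _ => by simp }
  · intro t ht x c
    obtain ⟨c0, hc0, hd0, _⟩ := hkey t ht.1
    have : ∑ i, u t x i * fderiv ℝ U (t, x) (0, ee i) c = 0 := by
      apply Finset.sum_eq_zero
      intro i _
      by_cases hi : i = c0
      · subst hi; rw [hd0]; simp
      · rw [hc0 x i hi, zero_mul]
    rw [this]
    simp [forceOf, hUdef, Finset.sum_apply]
  · intro t ht x
    obtain ⟨c0, _, hd0, hd1⟩ := hkey t ht.1
    apply Finset.sum_eq_zero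
    intro i _
    by_cases hi : i = c0
    · subst hi; rw [hd0]; rfl
    · exact hd1 x i hi

theorem forceOf_contDiff (ν : ℝ) (u : ℝ → V3 → V3)
    (hu : ContDiff ℝ ∞ (fun p : ℝ × V3 => u p.1 p.2)) :
    ContDiff ℝ ∞ (fun p : ℝ × V3 => forceOf ν u p.1 p.2) := by
  unfold forceOf
  apply ContDiff.sub
  · exact contDiff_fderiv_apply hu _
  · apply ContDiff.const_smul
    apply ContDiff.sum
    intro i _
    exact contDiff_fderiv_apply (contDiff_fderiv_apply hu _) _

/-- the force is determined locally, and commutes with translations -/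
theorem forceOf_congr (ν : ℝ) (u1 u2 : ℝ → V3 → V3) (t a : ℝ) (x b : V3)
    (h : (fun p : ℝ × V3 => u1 p.1 p.2) =ᶠ[𝓝 (t, x)] fun p => u2 (p.1 + a) (p.2 + b)) :
    forceOf ν u1 t x = forceOf ν u2 (t + a) (x + b) := by
  set U1 : ℝ × V3 → V3 := fun p => u1 p.1 p.2
  set U2 : ℝ × V3 → V3 := fun p => u2 p.1 p.2
  have h' : U1 =ᶠ[𝓝 (t, x)] fun p => U2 (p + (a, b)) := h
  have e1 : fderiv ℝ U1 =ᶠ[𝓝 (t, x)] fun p => fderiv ℝ U2 (p + (a, b)) := by
    have := Filter.EventuallyEq.fderiv (𝕜 := ℝ) h'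
    have e : fderiv ℝ (fun p => U2 (p + (a, b))) = fun p => fderiv ℝ U2 (p + (a, b)) := by
      funext p
      exact fderiv_comp_add_right (𝕜 := ℝ) (f := U2) (x := p) (a, b)
    rwa [e] at this
  have e2 : ∀ v, (fun q => fderiv ℝ U1 q v) =ᶠ[𝓝 (t, x)]
      fun p => (fun q => fderiv ℝ U2 q v) (p + (a, b)) := by
    intro v
    filter_upwards [e1] with p hp
    rw [hp]
  have e3 : ∀ v, fderiv ℝ (fun q => fderiv ℝ U1 q v) (t, x)
      = fderiv ℝ (fun q => fderiv ℝ U2 q v) ((t, x) + (a, b)) := by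
    intro v
    rw [(e2 v).fderiv_eq]
    exact fderiv_comp_add_right (𝕜 := ℝ) (f := fun q => fderiv ℝ U2 q v) (x := (t, x)) (a, b)
  have e4 : fderiv ℝ U1 (t, x) = fderiv ℝ U2 ((t, x) + (a, b)) := e1.eq_of_nhds
  show fderiv ℝ U1 (t, x) (1, 0) - ν • ∑ i : Fin 3,
      fderiv ℝ (fun q => fderiv ℝ U1 q (0, ee i)) (t, x) (0, ee i) = _
  rw [e4]
  simp only [e3]
  rfl

end Vale.Agent.Lib.P113
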