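import Vale.Agent.Lib.P113.Smooth
open Set Filter Topology
open scoped ContDiff

namespace Vale.Agent.Lib.P113

theorem stp_zero {y : ℝ} (h : y ≤ 0) : stp y = 0 := Real.smoothTransition.zero_of_nonpos h
theorem stp_one {y : ℝ} (h : 1 ≤ y) : stp y = 1 := Real.smoothTransition.one_of_one_le h
theorem stp_nonneg (y : ℝ) : 0 ≤ stp y := Real.smoothTransition.nonneg y
theorem stp_le_one (y : ℝ) : stp y ≤ 1 := Real.smoothTransition.le_one y

theorem plat_one {y : ℝ} (h0 : 0 ≤ y) (h1 : y ≤ 1 / 2) : plat y = 1 := by
  unfold plat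
  rw [stp_one (by linarith), stp_zero (by linarith)]; norm_num

theorem plat_zero_left {y : ℝ} (h : y ≤ -(1 / 4)) : plat y = 0 := by
  unfold plat
  rw [stp_zero (by linarith), stp_zero (by linarith)]; norm_num

theorem plat_zero_right {y : ℝ} (h : 3 / 4 ≤ y) : plat y = 0 := by
  unfold plat
  rw [stp_one (by linarith), stp_one (by linarith)]; norm_num

theorem plat_contDiff : ContDiff ℝ ∞ plat := by
  unfold plat
  exact (stp_contDiff.comp ((contDiff_const.mul contDiff_id).add contDiff_const)).sub
    (stp_contDiff.comp ((contDiff_const.mul contDiff_id).sub contDiff_const))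

theorem cfr_eq {u : ℝ} (h0 : -(1 / 4) ≤ u) (h1 : u < 3 / 4) : cfr u = u := by
  unfold cfr
  have : Int.fract (u + 1 / 4) = u + 1 / 4 := by
    rw [Int.fract_eq_iff]
    refine ⟨by linarith, by linarith, 0, by simp⟩
  rw [this]; ring

theorem cfr_add_one (u : ℝ) : cfr (u + 1) = cfr u := by
  unfold cfr
  have : u + 1 + 1 / 4 = (u + 1 / 4) + 1 := by ring
  rw [this, Int.fract_add_one]

namespace Machine

variable {M : Machine}

theorem val_lt (a : M.Sym) : val a < M.K := by
  unfold K
  exact Nat.lt_succ_of_le (Finset.le_sup (f := val (M := M)) (Finset.mem_univ a))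

theorem val_inj : Function.Injective (val (M := M)) := Encodable.encode_injective

theorem val_bk : val (bk : M.Sym) = 0 := by
  rfl

theorem K_pos : 0 < M.K := Nat.succ_pos _

theorem k_ge : (2 : ℝ) ≤ M.k := by
  unfold k
  have : (1 : ℝ) ≤ M.K := by exact_mod_cast K_pos
  linarith

theorem k_pos : (0 : ℝ) < M.k := by linarith [k_ge (M := M)]

theorem val_le (a : M.Sym) : (val a : ℝ) + 1 ≤ M.k / 2 := by
  unfold k
  have : val a + 1 ≤ M.K := val_lt a
  have h : ((val a + 1 : ℕ) : ℝ) ≤ M.K := by exact_mod_cast this
  push_cast at h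
  linarith

theorem enc_nonneg (l : List M.Sym) : 0 ≤ enc l := by
  induction l with
  | nil => simp [enc]
  | cons a l ih =>
    simp only [enc]
    have := k_pos (M := M)
    positivity

theorem enc_le (l : List M.Sym) : enc l ≤ 1 / 2 := by
  induction l with
  | nil => simp [enc]
  | cons a l ih =>
    simp only [enc]
    have hk := k_pos (M := M)
    rw [div_le_iff₀ hk]
    have := val_le a
    linarith

theorem enc_hd_tl (l : List M.Sym) : enc l = ((val (l.headD bk) : ℝ) + enc l.tail) / M.k := by
  rcases l with _ | ⟨a, l⟩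
  · simp [enc, val_bk]
  · simp [enc]

theorem enc_tail (l : List M.Sym) : enc l.tail = M.k * enc l - (val (l.headD bk) : ℝ) := by
  have hk := k_pos (M := M)
  rw [enc_hd_tl l]
  field_simp
  ring

theorem cfr_enc (l : List M.Sym) : cfr (enc l) = enc l :=
  cfr_eq (by linarith [enc_nonneg l]) (by linarith [enc_le l])

theorem popn_enc (j : ℕ) (l : List M.Sym) : popn j (pref3 l) (enc l) = enc (l.drop (min j 3)) := by
  have h1 : l.drop 1 = l.tail := by simp
  have h2 : l.drop 2 = l.tail.tail := by
    rcases l with _ | ⟨a, _ | ⟨b, l⟩⟩ <;> rfl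
  have h3 : l.drop 3 = l.tail.tail.tail := by
    rcases l with _ | ⟨a, _ | ⟨b, _ | ⟨c, l⟩⟩⟩ <;> rfl
  rcases j with _ | _ | _ | j
  · simp [popn]
  · simp only [popn, pref3]
    rw [show min (0 + 1) 3 = 1 by norm_num, h1, enc_tail]
  · simp only [popn, pref3]
    rw [show min (0 + 1 + 1) 3 = 2 by norm_num, h2, enc_tail, enc_tail]
  · simp only [popn, pref3]
    rw [show min (j + 1 + 1 + 1) 3 = 3 by omega, h3, enc_tail, enc_tail, enc_tail]

theorem pushl_enc (pre l : List M.Sym) : pushl pre (enc l) = enc (pre ++ l) := by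
  induction pre with
  | nil => simp [pushl]
  | cons a pre ih =>
    simp only [pushl, List.foldr_cons, List.cons_append, enc] at ih ⊢
    rw [ih]

theorem num_enc (l : List M.Sym) : M.k ^ 3 * enc l - num (pref3 l) = enc (l.drop 3) := by
  have := popn_enc 3 l
  simp only [popn, min_self] at this
  rw [← this]
  unfold num
  ring

/-- the integer version of `num` -/
def numN (π : M.Sym3) : ℕ := (val π.1 * (2 * M.K) + val π.2.1) * (2 * M.K) + val π.2.2

theorem num_eq (π : M.Sym3) : num π = (numN π : ℝ) := by
  unfold num numN k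
  push_cast
  ring

theorem numN_inj : Function.Injective (numN (M := M)) := by
  intro π ρ h
  obtain ⟨a, b, c⟩ := π
  obtain ⟨a', b', c'⟩ := ρ
  simp only [numN] at h
  have ha := val_lt a; have hb := val_lt b; have hc := val_lt c
  have ha' := val_lt a'; have hb' := val_lt b'; have hc' := val_lt c'
  set B := 2 * M.K with hB
  have hBpos : 0 < B := by have := K_pos (M := M); omega
  have e1 : ((val a * B + val b) * B + val c) % B = val c := by
    rw [Nat.mul_add_mod_of_lt (by omega)]
  have e1' : ((val a' * B + val b') * B + val c') % B = val c' := by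
    rw [Nat.mul_add_mod_of_lt (by omega)]
  have hcc : val c = val c' := by rw [← e1, ← e1', h]
  have h2 : val a * B + val b = val a' * B + val b' := by
    have : (val a * B + val b) * B = (val a' * B + val b') * B := by omega
    exact Nat.eq_of_mul_eq_mul_right hBpos this
  have e2 : (val a * B + val b) % B = val b := by
    rw [Nat.mul_add_mod_of_lt (by omega)]
  have e2' : (val a' * B + val b') % B = val b' := by
    rw [Nat.mul_add_mod_of_lt (by omega)]
  have hbb : val b = val b' := by rw [← e2, ← e2', h2]
  have haa : val a = val a' := by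
    have : val a * B = val a' * B := by omega
    exact Nat.eq_of_mul_eq_mul_right hBpos this
  rw [val_inj haa, val_inj hbb, val_inj hcc]

open scoped Classical in
theorem bl_enc (π : M.Sym3) (l : List M.Sym) : bl π (enc l) = if π = pref3 l then 1 else 0 := by
  unfold bl
  rw [cfr_enc]
  have h := num_enc l
  have h0 := enc_nonneg (l.drop 3)
  have h1 := enc_le (l.drop 3)
  split_ifs with hπ
  · subst hπ
    rw [h]
    exact plat_one h0 h1
  · have hne : numN π ≠ numN (pref3 l) := fun e => hπ (numN_inj e)
    have e : M.k ^ 3 * enc l - num π = enc (l.drop 3) + ((numN (pref3 l) : ℝ) - (numN π : ℝ)) := by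
      rw [← h, num_eq, num_eq]; ring
    rw [e]
    rcases lt_or_gt_of_ne hne with hlt | hgt
    · apply plat_zero_right
      have : (numN π : ℝ) + 1 ≤ numN (pref3 l) := by exact_mod_cast hlt
      linarith
    · apply plat_zero_left
      have : (numN (pref3 l) : ℝ) + 1 ≤ numN π := by exact_mod_cast hgt
      linarith

end Machine
end Vale.Agent.Lib.P113
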