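import Mathlib

/-!
# P113: one-tape Turing machines
-/

namespace Vale.Agent.Lib.P113

/-- A deterministic one-tape Turing machine: states `Fin (nQ+1)` with start state `0`, tape
alphabet `Fin (nS+1)` with blank `0`, a set of halting states, and a transition function giving
the new state, the written symbol and the direction of the move (`true` = right). -/
structure Machine where
  nQ : ℕ
  nS : ℕ
  halt : Fin (nQ + 1) → Bool
  δ : Fin (nQ + 1) → Fin (nS + 1) → Fin (nQ + 1) × Fin (nS + 1) × Bool

namespace Machine

variable (M : Machine)

/-- states -/
abbrev Q := Fin (M.nQ + 1)

/-- tape symbols, `0` is the blank -/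
abbrev S := Fin (M.nS + 1)

/-- state together with the direction of travel (`true` = right) -/
abbrev St := M.Q × Bool

/-- a garbage record: old state, old direction, old symbol -/
abbrev Rc := M.St × M.S

/-- a cell of the extended tape: a tape symbol or a garbage record -/
abbrev Cell := M.S ⊕ M.Rc

/-- A configuration: the state, the cells strictly to the left of the head (nearest first) and
the cells from the head on to the right (head cell first); both lists are continued by blanks. -/
structure Cfg where
  q : M.Q
  L : List M.S
  R : List M.S

variable {M}

/-- one step of the machine -/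
def step (c : M.Cfg) : M.Cfg :=
  let r := M.δ c.q (c.R.headD 0)
  if r.2.2 then ⟨r.1, r.2.1 :: c.L, c.R.tail⟩
  else ⟨r.1, c.L.tail, c.L.headD 0 :: r.2.1 :: c.R.tail⟩

/-- the initial configuration on input `w`: head on the first cell of `w`, blank elsewhere -/
def init (w : List M.S) : M.Cfg := ⟨0, [], w⟩

variable (M)

/-- `M` halts on `w`: a halting state is reached after finitely many steps (possibly none). -/
def HaltsOn (w : List M.S) : Prop := ∃ n : ℕ, M.halt ((step^[n] (init w)).q) = true

end Machine

end Vale.Agent.Lib.P113
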