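import Vale.Agent.Lib.P113.NSDefs
import Vale.Agent.Lib.P113.TM

/-!
# P113: the explicit velocity field and force attached to a machine and an input

Only definitions.  Three real registers (the coordinates of the particle) hold base-`k` codes of
stacks of symbols; a time-periodic sequence of shear flows `x_c += G (other two coordinates)`
performs one step of a reversible two-stack simulation of the machine per period.
-/

namespace Vale.Agent.Lib.P113

open Set

/-- the smooth step `Real.smoothTransition`: `0` on `(-∞,0]`, `1` on `[1,∞)` -/
noncomputable def stp : ℝ → ℝ := Real.smoothTransition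

/-- the derivative of the smooth step: a smooth pulse supported in `[0,1]` with integral `1` -/
noncomputable def pls : ℝ → ℝ := deriv Real.smoothTransition

/-- smooth plateau: `1` on `[0,1/2]`, `0` outside `(-1/4,3/4)` -/
noncomputable def plat (y : ℝ) : ℝ := stp (4 * y + 1) - stp (4 * y - 2)

/-- the representative of `u` modulo `1` in `[-1/4,3/4)` -/
noncomputable def cfr (u : ℝ) : ℝ := Int.fract (u + 1 / 4) - 1 / 4

/-- the time profile of slot `j` of the periodic program (period `14`, starting at time `2`) -/
noncomputable def pulse (j : ℕ) (t : ℝ) : ℝ := pls (14 * Int.fract ((t - 2 - j) / 14))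

/-- first source coordinate of a shear with target coordinate `c` -/
def oa (c : Fin 3) : Fin 3 := if c = 0 then 1 else 0

/-- second source coordinate of a shear with target coordinate `c` -/
def ob (c : Fin 3) : Fin 3 := if c = 2 then 1 else 2

namespace Machine

variable (M : Machine)

/-- stack symbols: cells of the extended tape, and markers (state, direction) -/
abbrev Sym := M.Cell ⊕ M.St

/-- the three top symbols of a stack -/
abbrev Sym3 := M.Sym × M.Sym × M.Sym

variable {M}

/-- the blank symbol -/
def bk : M.Sym := Sum.inl (Sum.inl 0)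

/-- the digit of a symbol (the blank has digit `0`) -/
def val (a : M.Sym) : ℕ := Encodable.encode a

variable (M)

/-- all digits are `< K` -/
def K : ℕ := Finset.univ.sup (val (M := M)) + 1

/-- the base of the codes -/
def k : ℝ := 2 * (M.K : ℝ)

variable {M}

/-- the code of a stack (top symbol first, continued by blanks) -/
noncomputable def enc : List M.Sym → ℝ
  | [] => 0
  | a :: l => ((val a : ℝ) + enc l) / M.k

/-- the three top symbols -/
def pref3 (l : List M.Sym) : M.Sym3 := (l.headD bk, l.tail.headD bk, l.tail.tail.headD bk)

/-- the integer with digits the three symbols -/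
noncomputable def num (π : M.Sym3) : ℝ :=
  ((val π.1 : ℝ) * M.k + (val π.2.1 : ℝ)) * M.k + (val π.2.2 : ℝ)

/-- smooth `1`-periodic indicator of the codes of the stacks with top symbols `π` -/
noncomputable def bl (π : M.Sym3) (u : ℝ) : ℝ := plat (M.k ^ 3 * cfr u - num π)

/-- code of the stack with its `j ≤ 3` top symbols (which are those of `π`) removed -/
noncomputable def popn (j : ℕ) (π : M.Sym3) (y : ℝ) : ℝ :=
  match j with
  | 0 => y
  | 1 => M.k * y - (val π.1 : ℝ)
  | 2 => M.k * (M.k * y - (val π.1 : ℝ)) - (val π.2.1 : ℝ)
  | _ => M.k * (M.k * (M.k * y - (val π.1 : ℝ)) - (val π.2.1 : ℝ)) - (val π.2.2 : ℝ)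

/-- code of the stack with the symbols `pre` pushed on top -/
noncomputable def pushl (pre : List M.Sym) (y : ℝ) : ℝ :=
  pre.foldr (fun a z => ((val a : ℝ) + z) / M.k) y

variable (M)

/-- A table entry `(src, pre, j)` stands for the stack `pre ++ drop j (source stack)`, the source
being the first (`false`) or the second (`true`) source register. -/
abbrev Entry := Option (Bool × List M.Sym × ℕ)

/-- A register operation: add (`sg = 1`) to or subtract (`sg = -1`) from register `c` the code of
the stack that the table prescribes, given the top symbols of the other two registers. -/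
structure Op where
  c : Fin 3
  sg : ℝ
  tab : M.Sym3 → M.Sym3 → M.Entry

variable {M}

/-- the contribution of one pair of blocks -/
noncomputable def term (e : M.Entry) (π ρ : M.Sym3) (u v : ℝ) : ℝ :=
  match e with
  | none => 0
  | some (false, pre, j) => bl π u * pushl pre (popn j π (cfr u)) * bl ρ v
  | some (true, pre, j) => bl π u * (bl ρ v * pushl pre (popn j ρ (cfr v)))

/-- the shear profile of a register operation; it does not depend on the coordinate `c` -/
noncomputable def Op.G (o : M.Op) (x : V3) : ℝ :=
  o.sg * ∑ π : M.Sym3, ∑ ρ : M.Sym3, term (o.tab π ρ) π ρ (x (oa o.c)) (x (ob o.c))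

/-- What the three top symbols of the new back stack tell about the step that produced it:
forward step or turn, the old current cell, the old marker, the number of new symbols. -/
def info (ρ : M.Sym3) : Option (Bool × M.Sym × M.Sym × ℕ) :=
  match ρ with
  | (Sum.inr m, Sum.inl (Sum.inr g), _) => some (true, Sum.inl (Sum.inr g), Sum.inr m, 2)
  | (Sum.inr m, Sum.inl (Sum.inl _), Sum.inl (Sum.inr g)) =>
      some (decide (g.1.2 = m.2), Sum.inl (Sum.inl g.2), Sum.inr g.1, 3)
  | _ => none

/-- table of operation 1: the new back stack, from the tops of the front and the back stack -/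
def tab1 (π ρ : M.Sym3) : M.Entry :=
  match ρ.1, π.1 with
  | Sum.inr m, Sum.inl (Sum.inr g) => some (true, [Sum.inr m, Sum.inl (Sum.inr g)], 1)
  | Sum.inr m, Sum.inl (Sum.inl s) =>
      if (M.δ m.1 s).2.2 = m.2 then
        some (true, [Sum.inr ((M.δ m.1 s).1, m.2), Sum.inl (Sum.inl (M.δ m.1 s).2.1),
          Sum.inl (Sum.inr (m, s))], 1)
      else
        some (false, [Sum.inr ((M.δ m.1 s).1, (M.δ m.1 s).2.2), Sum.inl (Sum.inl (M.δ m.1 s).2.1),
          Sum.inl (Sum.inr (m, s))], 1)
  | _, _ => none

/-- a table that looks only at the new back stack (second source), in forward steps -/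
def tabF (f : M.Sym → M.Sym → ℕ → Bool × List M.Sym × ℕ) (_ ρ : M.Sym3) : M.Entry :=
  match info ρ with
  | some (true, c, m, j) => some (f c m j)
  | _ => none

/-- a table that looks only at the new back stack (second source), in turns -/
def tabT (f : M.Sym → M.Sym → ℕ → Bool × List M.Sym × ℕ) (_ ρ : M.Sym3) : M.Entry :=
  match info ρ with
  | some (false, c, m, j) => some (f c m j)
  | _ => none

variable (M)

/-- The eleven register operations of one step.  Registers `(front, marker :: back, empty)` are
taken to `(front', marker' :: back', empty)`. -/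
def ops : Fin 11 → M.Op := ![
  ⟨2, 1, tab1⟩,
  ⟨1, -1, tabF fun _ m j => (true, [m], j)⟩,
  ⟨0, -1, tabT fun c _ j => (true, [c], j)⟩,
  ⟨1, 1, tabF fun _ _ _ => (false, [], 1)⟩,
  ⟨0, 1, tabT fun _ _ _ => (false, [], 1)⟩,
  ⟨0, -1, tabF fun c _ _ => (false, [c], 0)⟩,
  ⟨1, -1, tabT fun _ m _ => (false, [m], 0)⟩,
  ⟨0, 1, tabF fun _ _ _ => (false, [], 0)⟩,
  ⟨1, -1, tabF fun _ _ _ => (false, [], 0)⟩,
  ⟨1, 1, fun _ _ => some (true, [], 0)⟩,
  ⟨2, -1, fun _ _ => some (true, [], 0)⟩]

variable {M}

/-- is the symbol a marker with a halting state? -/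
def haltMark (a : M.Sym) : Bool :=
  match a with
  | Sum.inr m => M.halt m.1
  | _ => false

variable (M)

/-- the profile of the halting detector: `3/4` if the marker on register `1` is halting -/
noncomputable def Gdet (x : V3) : ℝ :=
  3 / 4 * ∑ ρ : M.Sym3, if haltMark ρ.1 then bl ρ (x 1) else 0

/-- target coordinates of the twelve slots of the periodic program -/
def progC : Fin 12 → Fin 3 := Fin.cons 2 fun j => (M.ops j).c

/-- shear profiles of the twelve slots of the periodic program -/
noncomputable def progG : Fin 12 → V3 → ℝ := Fin.cons M.Gdet fun j => (M.ops j).G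

/-- the code of the input: the front stack of the initial configuration -/
noncomputable def encIn (w : List M.S) : ℝ := enc (w.map fun s => (Sum.inl (Sum.inl s) : M.Sym))

/-- the code of the initial back stack: just the marker (start state, moving right) -/
noncomputable def encMk : ℝ := enc [(Sum.inr (0, true) : M.Sym)]

/-- The velocity field.  During `[0,1]` and `[1,2]` uniform translations bring the particle from
the origin to the code of the initial configuration; afterwards the periodic program runs. -/
noncomputable def vel (w : List M.S) (t : ℝ) (x : V3) : V3 :=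
  pls t • (M.encIn w • ee 0) + pls (t - 1) • (M.encMk • ee 1)
    + ∑ j : Fin 12, pulse j t • (M.progG j x • ee (M.progC j))

/-- The force `f = ∂ₜ u - ν Δ u` for `u = vel`. -/
noncomputable def force (ν : ℝ) (w : List M.S) (t : ℝ) (x : V3) : V3 :=
  fderiv ℝ (fun p : ℝ × V3 => M.vel w p.1 p.2) (t, x) (1, 0)
    - ν • ∑ i : Fin 3, fderiv ℝ (fun q : ℝ × V3 =>
        fderiv ℝ (fun p : ℝ × V3 => M.vel w p.1 p.2) q (0, ee i)) (t, x) (0, ee i)

end Machine

/-- the starting point of the particle -/
def aStar : V3 := 0

/-- the target open set (a slab of the torus) -/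
def target : Set V3 := {x | Int.fract (x 2) ∈ Ioo (7 / 10 : ℝ) (8 / 10)}

end Vale.Agent.Lib.P113
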