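import Vale.Agent.Lib.P113.Eval
open Set Filter Topology
open scoped ContDiff

namespace Vale.Agent.Lib.P113

/-- `W` is a shear displacement: it points in one coordinate direction `c` and does not depend on
the coordinate `c`. -/
def IsShear (W : V3 → V3) : Prop :=
  ∃ c : Fin 3, (∀ x i, i ≠ c → W x i = 0) ∧ ∀ x y : V3, (∀ i, i ≠ c → x i = y i) → W x = W y

/-- the positions at integer times -/
noncomputable def orbit (W : ℕ → V3 → V3) (a : V3) : ℕ → V3
  | 0 => a
  | n + 1 => orbit W a n + W n (orbit W a n)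

variable {u : ℝ → V3 → V3} {W : ℕ → V3 → V3} {a : V3}

theorem stp_shift_hasDerivAt (n t : ℝ) (v : V3) :
    HasDerivAt (fun s => stp (s - n) • v) (pls (t - n) • v) t := by
  have h := (stp_hasDerivAt (t - n)).comp_sub_const t n
  exact h.smul_const v

theorem slot_core (hu : ∀ (n : ℕ) (t : ℝ), (n : ℝ) ≤ t → t ≤ n + 1 → ∀ x, u t x = pls (t - n) • W n x)
    (hW : ∀ n, IsShear (W n)) {X : ℝ → V3} (hX : IsTraj u a X) (n : ℕ) (Y : V3) (hXn : X n = Y) :
    ∀ t, (n : ℝ) ≤ t → t ≤ n + 1 → X t = Y + stp (t - n) • W n Y := by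
  obtain ⟨c, hc0, hcdep⟩ := hW n
  have hn0 : (0 : ℝ) ≤ n := Nat.cast_nonneg n
  have hder : ∀ t, (n : ℝ) ≤ t → t ≤ n + 1 →
      HasDerivWithinAt X (pls (t - n) • W n (X t)) (Ici t) t := by
    intro t h1 h2
    have := (hX.2 t (by linarith)).mono (Ici_subset_Ici.2 (by linarith : (0 : ℝ) ≤ t))
    rwa [hu n t h1 h2] at this
  have hcont : ContinuousOn X (Icc (n : ℝ) (n + 1)) := by
    intro t ht
    exact ((hX.2 t (by linarith [ht.1])).continuousWithinAt).mono
      (fun s hs => by simp only [mem_Ici]; linarith [hs.1])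
  have step1 : ∀ i, i ≠ c → ∀ t ∈ Icc (n : ℝ) (n + 1), X t i = X n i := by
    intro i hi
    apply constant_of_has_deriv_right_zero
    · exact (continuous_apply i).comp_continuousOn hcont
    · intro t ht
      have := (hasDerivWithinAt_pi.1 (hder t ht.1 ht.2.le)) i
      simpa [hc0 _ i hi] using this
  have step2 : ∀ t ∈ Icc (n : ℝ) (n + 1), W n (X t) = W n Y := by
    intro t ht
    apply hcdep
    intro i hi
    rw [step1 i hi t ht, hXn]
  have step3 : ∀ t ∈ Icc (n : ℝ) (n + 1),
      X t - stp (t - n) • W n Y = X n - stp ((n : ℝ) - n) • W n Y := by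
    apply constant_of_has_deriv_right_zero
    · apply hcont.sub
      intro t _
      exact (stp_shift_hasDerivAt n t (W n Y)).continuousAt.continuousWithinAt
    · intro t ht
      have h1 := hder t ht.1 ht.2.le
      rw [step2 t ⟨ht.1, ht.2.le⟩] at h1
      have h2 := (stp_shift_hasDerivAt n t (W n Y)).hasDerivWithinAt (s := Ici t)
      have h3 := h1.sub h2
      rw [sub_self] at h3
      exact h3
  intro t h1 h2
  have := step3 t ⟨h1, h2⟩
  rw [sub_self, stp_zero le_rfl, zero_smul, sub_zero, hXn] at this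
  exact eq_add_of_sub_eq this

theorem traj_slot (hu : ∀ (n : ℕ) (t : ℝ), (n : ℝ) ≤ t → t ≤ n + 1 → ∀ x, u t x = pls (t - n) • W n x)
    (hW : ∀ n, IsShear (W n)) {X : ℝ → V3} (hX : IsTraj u a X) (n : ℕ) :
    ∀ t, (n : ℝ) ≤ t → t ≤ n + 1 → X t = orbit W a n + stp (t - n) • W n (orbit W a n) := by
  have key : X n = orbit W a n := by
    induction n with
    | zero => simpa [orbit] using hX.1
    | succ n ih =>
      have := slot_core hu hW hX n _ ih (n + 1) (by linarith) le_rfl
      push_cast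
      rw [this, add_sub_cancel_left, stp_one le_rfl, one_smul]
      rfl
  exact slot_core hu hW hX n _ key

/-- the explicit trajectory -/
noncomputable def traj (W : ℕ → V3 → V3) (a : V3) (t : ℝ) : V3 :=
  a + ∑ n ∈ Finset.range (⌊t⌋₊ + 1), stp (t - n) • W n (orbit W a n)

theorem orbit_eq_sum (W : ℕ → V3 → V3) (a : V3) (m : ℕ) :
    orbit W a m = a + ∑ n ∈ Finset.range m, W n (orbit W a n) := by
  induction m with
  | zero => simp [orbit]
  | succ m ih => rw [Finset.sum_range_succ, orbit, ih]; abel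

theorem traj_eq_sum (W : ℕ → V3 → V3) (a : V3) (N : ℕ) (hN : 1 ≤ N) (t : ℝ) (h : t < N) :
    traj W a t = a + ∑ n ∈ Finset.range N, stp (t - n) • W n (orbit W a n) := by
  unfold traj
  congr 1
  have hfl : ⌊t⌋₊ + 1 ≤ N := by
    rcases lt_or_ge t 0 with hneg | hpos
    · rw [Nat.floor_of_nonpos hneg.le]
      omega
    · have : ⌊t⌋₊ < N := (Nat.floor_lt hpos).2 h
      omega
  apply Finset.sum_subset (Finset.range_subset_range.2 hfl)
  intro n _ hn
  have : t < n := by
    have : ⌊t⌋₊ + 1 ≤ n := by simpa using hn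
    have h2 := Nat.lt_floor_add_one t
    have : ((⌊t⌋₊ + 1 : ℕ) : ℝ) ≤ n := by exact_mod_cast this
    push_cast at this
    linarith
  rw [stp_zero (by linarith), zero_smul]

theorem traj_eq_orbit (W : ℕ → V3 → V3) (a : V3) (m : ℕ) (t : ℝ) (h1 : (m : ℝ) ≤ t)
    (h2 : t < m + 1) : traj W a t = orbit W a m + stp (t - m) • W m (orbit W a m) := by
  have hfl : ⌊t⌋₊ = m := by
    rw [Nat.floor_eq_iff (by linarith [Nat.cast_nonneg (α := ℝ) m])]
    exact ⟨h1, h2⟩
  unfold traj
  rw [hfl, Finset.sum_range_succ, orbit_eq_sum, add_assoc]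
  congr 2
  apply Finset.sum_congr rfl
  intro n hn
  have : n + 1 ≤ m := by simpa using hn
  have : ((n + 1 : ℕ) : ℝ) ≤ m := by exact_mod_cast this
  push_cast at this
  rw [stp_one (by linarith), one_smul]

theorem traj_isTraj
    (hu : ∀ (n : ℕ) (t : ℝ), (n : ℝ) ≤ t → t ≤ n + 1 → ∀ x, u t x = pls (t - n) • W n x)
    (hW : ∀ n, IsShear (W n)) : IsTraj u a (traj W a) := by
  constructor
  · have := traj_eq_orbit W a 0 0 (by simp) (by simp)
    rw [this]
    simp [orbit, stp_zero]
  · intro t0 ht0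
    apply HasDerivAt.hasDerivWithinAt
    set m := ⌊t0⌋₊ with hm
    have h1 : (m : ℝ) ≤ t0 := Nat.floor_le ht0
    have h2 : t0 < m + 1 := Nat.lt_floor_add_one t0
    have hloc : traj W a =ᶠ[𝓝 t0]
        fun t => a + ∑ n ∈ Finset.range (m + 2), stp (t - n) • W n (orbit W a n) := by
      have : t0 < ((m + 2 : ℕ) : ℝ) := by push_cast; linarith
      filter_upwards [Iio_mem_nhds this] with t ht
      exact traj_eq_sum W a (m + 2) (by omega) t ht
    have hd : HasDerivAt (fun t => a + ∑ n ∈ Finset.range (m + 2), stp (t - n) • W n (orbit W a n))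
        (∑ n ∈ Finset.range (m + 2), pls (t0 - n) • W n (orbit W a n)) t0 := by
      apply HasDerivAt.const_add
      apply HasDerivAt.fun_sum
      intro n _
      exact stp_shift_hasDerivAt n t0 _
    have hsum : ∑ n ∈ Finset.range (m + 2), pls (t0 - n) • W n (orbit W a n)
        = pls (t0 - m) • W m (orbit W a m) := by
      apply Finset.sum_eq_single m
      · intro n _ hn
        rcases lt_or_gt_of_ne hn with hlt | hgt
        · have : ((n + 1 : ℕ) : ℝ) ≤ m := by exact_mod_cast hlt
          push_cast at this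
          rw [pls_zero_of_one_le (by linarith), zero_smul]
        · have : ((m + 1 : ℕ) : ℝ) ≤ n := by exact_mod_cast hgt
          push_cast at this
          rw [pls_zero_of_nonpos (by linarith), zero_smul]
      · intro h
        exact absurd (Finset.mem_range.2 (by omega)) h
    have hval : u t0 (traj W a t0) = pls (t0 - m) • W m (orbit W a m) := by
      rw [hu m t0 h1 h2.le, traj_eq_orbit W a m t0 h1 h2]
      obtain ⟨c, hc0, hcdep⟩ := hW m
      congr 1
      apply hcdep
      intro i hi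
      simp [hc0 _ i hi]
    rw [hval, ← hsum]
    exact hd.congr_of_eventuallyEq hloc

end Vale.Agent.Lib.P113
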