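import Mathlib

/-!
# P113: forced Navier-Stokes on the flat torus, classical solutions, trajectories

Functions on the torus `(ℝ/ℤ)^3` are represented by functions on `ℝ^3 = Fin 3 → ℝ` that are
`1`-periodic in each coordinate.
-/

namespace Vale.Agent.Lib.P113

open Set MeasureTheory

/-- Points of `ℝ^3` (lifts of points of the torus), and vectors. -/
abbrev V3 := Fin 3 → ℝ

/-- The `i`-th unit vector. -/
def ee (i : Fin 3) : V3 := Pi.single i 1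

/-- `1`-periodicity in each coordinate: the function descends to the torus. -/
def Per {α : Type*} (g : V3 → α) : Prop := ∀ (x : V3) (i : Fin 3), g (x + ee i) = g x

/-- The unit cube, a fundamental domain of the torus. -/
def cube : Set V3 := Set.Icc 0 1

/-- `(u, p)` solves the forced Navier-Stokes system from rest classically on `[0,T] × torus`,
with derivative fields `ut = ∂ₜ u`, `du i = ∂ᵢ u`, `ddu i = ∂ᵢ ∂ᵢ u`, `dp i = ∂ᵢ p`:
all these fields are continuous on `[0,T] × ℝ^3`, the equations hold pointwise, `u(0) = 0` and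
`p` has spatial mean zero. -/
structure IsClassical (ν : ℝ) (f : ℝ → V3 → V3) (T : ℝ) (u : ℝ → V3 → V3) (p : ℝ → V3 → ℝ)
    (ut : ℝ → V3 → V3) (du ddu : Fin 3 → ℝ → V3 → V3) (dp : Fin 3 → ℝ → V3 → ℝ) : Prop where
  per_u : ∀ t ∈ Icc 0 T, Per (u t)
  per_p : ∀ t ∈ Icc 0 T, Per (p t)
  cont_u : ContinuousOn (fun q : ℝ × V3 => u q.1 q.2) (Icc 0 T ×ˢ univ)
  cont_ut : ContinuousOn (fun q : ℝ × V3 => ut q.1 q.2) (Icc 0 T ×ˢ univ)
  cont_du : ∀ i, ContinuousOn (fun q : ℝ × V3 => du i q.1 q.2) (Icc 0 T ×ˢ univ)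
  cont_ddu : ∀ i, ContinuousOn (fun q : ℝ × V3 => ddu i q.1 q.2) (Icc 0 T ×ˢ univ)
  cont_p : ContinuousOn (fun q : ℝ × V3 => p q.1 q.2) (Icc 0 T ×ˢ univ)
  cont_dp : ∀ i, ContinuousOn (fun q : ℝ × V3 => dp i q.1 q.2) (Icc 0 T ×ˢ univ)
  hut : ∀ t ∈ Icc 0 T, ∀ x, HasDerivWithinAt (fun s => u s x) (ut t x) (Icc 0 T) t
  hdu : ∀ i, ∀ t ∈ Icc 0 T, ∀ x, HasDerivAt (fun s : ℝ => u t (x + s • ee i)) (du i t x) 0
  hddu : ∀ i, ∀ t ∈ Icc 0 T, ∀ x, HasDerivAt (fun s : ℝ => du i t (x + s • ee i)) (ddu i t x) 0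
  hdp : ∀ i, ∀ t ∈ Icc 0 T, ∀ x, HasDerivAt (fun s : ℝ => p t (x + s • ee i)) (dp i t x) 0
  mom : ∀ t ∈ Icc 0 T, ∀ x c,
    ut t x c + ∑ i, u t x i * du i t x c = - dp c t x + ν * ∑ i, ddu i t x c + f t x c
  div : ∀ t ∈ Icc 0 T, ∀ x, ∑ i, du i t x i = 0
  init : ∀ x, u 0 x = 0
  mean : ∀ t ∈ Icc 0 T, ∫ x in cube, p t x = 0

/-- `(u, p)` is a classical solution on `[0,T]` of
`∂ₜu + (u·∇)u = -∇p + νΔu + f`, `div u = 0`, `u(0) = 0` on the torus. -/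
def ClassicalSol (ν : ℝ) (f : ℝ → V3 → V3) (T : ℝ) (u : ℝ → V3 → V3) (p : ℝ → V3 → ℝ) : Prop :=
  ∃ ut du ddu dp, IsClassical ν f T u p ut du ddu dp

/-- `X` is the trajectory of the particle starting at `a` in the velocity field `u`:
`X' (t) = u (t, X t)` for all `t ≥ 0` (one-sided derivative at `0`) and `X 0 = a`. -/
def IsTraj (u : ℝ → V3 → V3) (a : V3) (X : ℝ → V3) : Prop :=
  X 0 = a ∧ ∀ t, 0 ≤ t → HasDerivWithinAt X (u t (X t)) (Ici 0) t

end Vale.Agent.Lib.P113
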