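import Vale.Agent.Lib.P113.Field
open Set Filter Topology
open scoped ContDiff

namespace Vale.Agent.Lib.P113

theorem stp_contDiff : ContDiff ℝ ∞ stp := Real.smoothTransition.contDiff

theorem pls_contDiff : ContDiff ℝ ∞ pls := by
  have h : ContDiff ℝ (∞ + 1) stp := by
    simpa using stp_contDiff
  exact (contDiff_succ_iff_deriv.1 h).2.2

theorem stp_hasDerivAt (t : ℝ) : HasDerivAt stp (pls t) t := by
  have : DifferentiableAt ℝ stp t := (stp_contDiff.differentiable (by simp)) t
  exact this.hasDerivAt

theorem pls_zero_of_neg {t : ℝ} (h : t < 0) : pls t = 0 := by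
  have : stp =ᶠ[𝓝 t] fun _ => 0 := by
    filter_upwards [Iio_mem_nhds h] with s hs
    exact Real.smoothTransition.zero_of_nonpos (le_of_lt hs)
  have h2 := this.deriv_eq
  simpa [pls, stp] using h2

theorem pls_zero_of_gt {t : ℝ} (h : 1 < t) : pls t = 0 := by
  have : stp =ᶠ[𝓝 t] fun _ => 1 := by
    filter_upwards [Ioi_mem_nhds h] with s hs
    exact Real.smoothTransition.one_of_one_le (le_of_lt hs)
  have h2 := this.deriv_eq
  simpa [pls, stp] using h2

theorem pls_zero_of_nonpos {t : ℝ} (h : t ≤ 0) : pls t = 0 := by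
  have hc : Continuous pls := pls_contDiff.continuous
  have hcl : IsClosed {s | pls s = 0} := isClosed_eq hc continuous_const
  have : Iic (0:ℝ) ⊆ {s | pls s = 0} := by
    rw [← closure_Iio]
    exact hcl.closure_subset_iff.2 (fun s hs => pls_zero_of_neg hs)
  exact this h

theorem pls_zero_of_one_le {t : ℝ} (h : 1 ≤ t) : pls t = 0 := by
  have hc : Continuous pls := pls_contDiff.continuous
  have hcl : IsClosed {s | pls s = 0} := isClosed_eq hc continuous_const
  have : Ici (1:ℝ) ⊆ {s | pls s = 0} := by
    rw [← closure_Ioi]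
    exact hcl.closure_subset_iff.2 (fun s hs => pls_zero_of_gt hs)
  exact this h

/-- periodisation lemma -/
theorem contDiff_comp_fract (g : ℝ → ℝ) (hg : ContDiff ℝ ∞ g) (P ε : ℝ) (hP : 0 < P) (hε : 0 < ε)
    (h0 : ∀ y, y ≤ 0 → g y = 0) (h1 : ∀ y, P - ε ≤ y → g y = 0) :
    ContDiff ℝ ∞ (fun s => g (P * Int.fract (s / P))) := by
  rw [contDiff_iff_contDiffAt]
  intro s0
  set m : ℤ := ⌊s0 / P⌋ with hm
  have hloc : (fun s => g (P * Int.fract (s / P))) =ᶠ[𝓝 s0] fun s => g (s - P * m) := by
    have hs0 : s0 ∈ Ioo (P * m - ε) (P * m + P) := by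
      have h1 := Int.floor_le (s0 / P)
      have h2 := Int.lt_floor_add_one (s0 / P)
      rw [← hm] at h1 h2
      rw [le_div_iff₀ hP] at h1
      rw [div_lt_iff₀ hP] at h2
      constructor <;> nlinarith
    filter_upwards [Ioo_mem_nhds hs0.1 hs0.2] with s hs
    rcases lt_or_ge s (P * m) with hlt | hge
    · -- s < P m
      rw [h0 (s - P * m) (by linarith)]
      rcases le_or_gt P ε with hPe | hPe
      · apply h1
        have := Int.fract_nonneg (s / P)
        nlinarith
      apply h1
      have hfl : ⌊s / P⌋ = m - 1 := by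
        rw [Int.floor_eq_iff]
        push_cast
        constructor
        · rw [le_div_iff₀ hP]; nlinarith [hs.1]
        · rw [div_lt_iff₀ hP]; nlinarith
      have : Int.fract (s / P) = s / P - (m - 1) := by
        rw [Int.fract, hfl]; push_cast; ring
      rw [this]
      have : P * (s / P - (m - 1)) = s - P * m + P := by field_simp; ring
      rw [this]; linarith [hs.1]
    · have hfl : ⌊s / P⌋ = m := by
        rw [Int.floor_eq_iff]
        constructor
        · rw [le_div_iff₀ hP]; nlinarith
        · rw [div_lt_iff₀ hP]; nlinarith [hs.2]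
      have : Int.fract (s / P) = s / P - m := by
        rw [Int.fract, hfl]
      rw [this]
      congr 1
      field_simp
  refine ContDiffAt.congr_of_eventuallyEq ?_ hloc
  exact (hg.comp (contDiff_id.sub contDiff_const)).contDiffAt

end Vale.Agent.Lib.P113
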