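import Vale.Agent.Lib.P113.NSDefs

/-!
# P113: uniqueness of classical solutions of the forced Navier-Stokes system on the torus
-/

namespace Vale.Agent.Lib.P113

open Set MeasureTheory Filter Topology

theorem uq_insertNth_add (i : Fin 3) (s h : ℝ) (y : Fin 2 → ℝ) :
    (i.insertNth s y : V3) + h • ee i = i.insertNth (s + h) y := by
  funext j
  refine Fin.succAboveCases i ?_ (fun k => ?_) j
  · simp [ee]
  · simp [ee, Fin.succAbove_ne]

theorem uq_isCompact_cube : IsCompact cube := isCompact_Icc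

theorem uq_measurableSet_cube : MeasurableSet cube := measurableSet_Icc

/-- The integral over the unit cube of a continuous directional derivative of a periodic function
vanishes. -/
theorem uq_integral_dir (i : Fin 3) (F G : V3 → ℝ) (hper : Per F) (hG : Continuous G)
    (hd : ∀ x, HasDerivAt (fun s : ℝ => F (x + s • ee i)) (G x) 0) :
    ∫ x in cube, G x = 0 := by
  set e := MeasurableEquiv.piFinSuccAbove (fun _ : Fin 3 => ℝ) i with he
  have hmp : MeasurePreserving e.symm volume volume :=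
    (volume_preserving_piFinSuccAbove (fun _ : Fin 3 => ℝ) i).symm e
  have hesymm : ∀ z : ℝ × (Fin 2 → ℝ), e.symm z = (i.insertNth z.1 z.2 : V3) := fun z => rfl
  rw [← hmp.setIntegral_preimage_emb e.symm.measurableEmbedding]
  have hpre : e.symm ⁻¹' cube = (Icc (0 : ℝ) 1) ×ˢ (Icc (0 : Fin 2 → ℝ) 1) := by
    ext z
    simp only [mem_preimage, hesymm, cube, mem_prod]
    rw [Fin.insertNth_mem_Icc]
    rfl
  rw [hpre, Measure.volume_eq_prod, ← setIntegral_prod_swap]
  have hcont : Continuous (fun z : (Fin 2 → ℝ) × ℝ => G (e.symm z.swap)) := by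
    refine hG.comp ?_
    simp only [hesymm]
    exact Continuous.finInsertNth i (continuous_snd) (continuous_fst)
  rw [setIntegral_prod]
  · refine integral_eq_zero_of_ae (Filter.Eventually.of_forall (fun y => ?_))
    simp only [Prod.swap_prod_mk, hesymm, Pi.zero_apply]
    rw [integral_Icc_eq_integral_Ioc, ← intervalIntegral.integral_of_le zero_le_one]
    have hder : ∀ s ∈ uIcc (0 : ℝ) 1, HasDerivAt (fun s : ℝ => F (i.insertNth s y : V3))
        (G (i.insertNth s y : V3)) s := by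
      intro s _
      have h1 := hd (i.insertNth s y : V3)
      simp only [uq_insertNth_add] at h1
      have h2 := HasDerivAt.comp_sub_const s s (f := fun h : ℝ => F (i.insertNth (s + h) y : V3))
        (f' := G (i.insertNth s y : V3)) (by rw [sub_self]; exact h1)
      simpa using h2
    rw [intervalIntegral.integral_eq_sub_of_hasDerivAt hder]
    · have := hper (i.insertNth 0 y : V3) i
      have h3 := uq_insertNth_add i 0 1 y
      rw [one_smul, zero_add] at h3
      rw [h3] at this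
      rw [this, sub_self]
    · apply Continuous.intervalIntegrable
      exact hG.comp (Continuous.finInsertNth i continuous_id continuous_const)
  · exact hcont.continuousOn.integrableOn_compact (isCompact_Icc.prod isCompact_Icc)

theorem uq_slice_x {α : Type*} [TopologicalSpace α] {g : ℝ → V3 → α} {T : ℝ}
    (h : ContinuousOn (fun q : ℝ × V3 => g q.1 q.2) (Icc 0 T ×ˢ univ)) {t : ℝ} (ht : t ∈ Icc 0 T) :
    Continuous (g t) :=
  h.comp_continuous (f := fun x : V3 => (t, x)) (by fun_prop) (fun x => ⟨ht, mem_univ _⟩)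

theorem uq_slice_t {α : Type*} [TopologicalSpace α] {g : ℝ → V3 → α} {T : ℝ}
    (h : ContinuousOn (fun q : ℝ × V3 => g q.1 q.2) (Icc 0 T ×ˢ univ)) (x : V3) :
    ContinuousOn (fun t => g t x) (Icc 0 T) :=
  h.comp (f := fun t : ℝ => (t, x)) (by fun_prop) (fun t ht => ⟨ht, mem_univ _⟩)

theorem uq_bound {g : ℝ → V3 → ℝ} {T : ℝ}
    (h : ContinuousOn (fun q : ℝ × V3 => g q.1 q.2) (Icc 0 T ×ˢ univ)) :
    ∃ M, ∀ t ∈ Icc 0 T, ∀ x ∈ cube, ‖g t x‖ ≤ M := by
  have hc : IsCompact (Icc (0 : ℝ) T ×ˢ cube) := isCompact_Icc.prod uq_isCompact_cube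
  obtain ⟨M, hM⟩ := hc.exists_bound_of_continuousOn
    (h.mono (prod_mono_right (subset_univ _)))
  exact ⟨M, fun t ht x hx => hM (t, x) ⟨ht, hx⟩⟩

theorem uq_integrable_const (M : ℝ) : Integrable (fun _ : V3 => M) (volume.restrict cube) := by
  have : IntegrableOn (fun _ : V3 => M) cube volume :=
    continuous_const.continuousOn.integrableOn_compact uq_isCompact_cube
  exact this

theorem uq_param_cont {g : ℝ → V3 → ℝ} {T : ℝ}
    (hg : ContinuousOn (fun q : ℝ × V3 => g q.1 q.2) (Icc 0 T ×ˢ univ)) :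
    ContinuousOn (fun t => ∫ x in cube, g t x) (Icc 0 T) := by
  obtain ⟨M, hM⟩ := uq_bound hg
  intro t _
  refine continuousWithinAt_of_dominated (bound := fun _ => M) ?_ ?_ (uq_integrable_const M) ?_
  · filter_upwards [self_mem_nhdsWithin] with s hs
    exact (uq_slice_x hg hs).aestronglyMeasurable
  · filter_upwards [self_mem_nhdsWithin] with s hs
    exact (ae_restrict_iff' uq_measurableSet_cube).mpr (Eventually.of_forall (fun x hx => hM s hs x hx))
  · exact Eventually.of_forall (fun x => uq_slice_t hg x t ‹_›)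

theorem uq_param_deriv {g g' : ℝ → V3 → ℝ} {T : ℝ}
    (hg : ContinuousOn (fun q : ℝ × V3 => g q.1 q.2) (Icc 0 T ×ˢ univ))
    (hg' : ContinuousOn (fun q : ℝ × V3 => g' q.1 q.2) (Icc 0 T ×ˢ univ))
    (hd : ∀ t ∈ Icc 0 T, ∀ x, HasDerivWithinAt (fun s => g s x) (g' t x) (Icc 0 T) t)
    {t : ℝ} (ht : t ∈ Ioo 0 T) :
    HasDerivAt (fun t => ∫ x in cube, g t x) (∫ x in cube, g' t x) t := by
  obtain ⟨M, hM⟩ := uq_bound hg'
  have hsub : Ioo (0 : ℝ) T ⊆ Icc 0 T := Ioo_subset_Icc_self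
  refine (hasDerivAt_integral_of_dominated_loc_of_deriv_le (μ := volume.restrict cube)
    (F := g) (F' := g') (bound := fun _ => M) (s := Ioo 0 T) (Ioo_mem_nhds ht.1 ht.2)
    ?_ ?_ ?_ ?_ (uq_integrable_const M) ?_).2
  · filter_upwards [Ioo_mem_nhds ht.1 ht.2] with s hs
    exact (uq_slice_x hg (hsub hs)).aestronglyMeasurable
  · exact (uq_slice_x hg (hsub ht)).continuousOn.integrableOn_compact uq_isCompact_cube
  · exact (uq_slice_x hg' (hsub ht)).aestronglyMeasurable
  · exact (ae_restrict_iff' uq_measurableSet_cube).mpr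
      (Eventually.of_forall (fun x hx s hs => hM s (hsub hs) x hx))
  · exact Eventually.of_forall (fun x s hs =>
      (hd s (hsub hs) x).hasDerivAt (Icc_mem_nhds hs.1 hs.2))


theorem uq_space (ν : ℝ) (hν : 0 ≤ ν)
    (a w : Fin 3 → V3 → ℝ) (π : V3 → ℝ)
    (da : Fin 3 → V3 → ℝ) (dw ddw : Fin 3 → Fin 3 → V3 → ℝ) (dπ : Fin 3 → V3 → ℝ)
    (pa : ∀ i, Per (a i)) (pw : ∀ c, Per (w c)) (pπ : Per π) (pdw : ∀ i c, Per (dw i c))
    (ca : ∀ i, Continuous (a i)) (cw : ∀ c, Continuous (w c)) (cπ : Continuous π)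
    (cda : ∀ i, Continuous (da i)) (cdw : ∀ i c, Continuous (dw i c))
    (cddw : ∀ i c, Continuous (ddw i c)) (cdπ : ∀ i, Continuous (dπ i))
    (ha : ∀ i x, HasDerivAt (fun s : ℝ => a i (x + s • ee i)) (da i x) 0)
    (hw : ∀ i c x, HasDerivAt (fun s : ℝ => w c (x + s • ee i)) (dw i c x) 0)
    (hdw : ∀ i c x, HasDerivAt (fun s : ℝ => dw i c (x + s • ee i)) (ddw i c x) 0)
    (hπ : ∀ i x, HasDerivAt (fun s : ℝ => π (x + s • ee i)) (dπ i x) 0)
    (diva : ∀ x, ∑ i, da i x = 0) (divw : ∀ x, ∑ i, dw i i x = 0) :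
    ∫ x in cube, (2 * ∑ c, w c x * (-(∑ i, a i x * dw i c x) - dπ c x + ν * ∑ i, ddw i c x))
      ≤ 0 := by
  set H : Fin 3 → V3 → ℝ := fun i x =>
    -(a i x * ∑ c, (w c x) ^ 2) - 2 * (w i x * π x) + 2 * ν * ∑ c, w c x * dw i c x with hH
  set G : Fin 3 → V3 → ℝ := fun i x =>
    -(da i x * ∑ c, (w c x) ^ 2 + a i x * ∑ c, 2 * w c x * dw i c x)
      - 2 * (dw i i x * π x + w i x * dπ i x)
      + 2 * ν * ∑ c, (dw i c x * dw i c x + w c x * ddw i c x) with hG
  have hGc : ∀ i, Continuous (G i) := by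
    intro i
    simp only [hG]
    fun_prop
  have hHper : ∀ i, Per (H i) := by
    intro i x j
    simp only [hH]
    rw [pa i x j, pπ x j, pw i x j]
    simp only [pw _ x j, pdw _ _ x j]
  have hHd : ∀ i x, HasDerivAt (fun s : ℝ => H i (x + s • ee i)) (G i x) 0 := by
    intro i x
    have hs1 : HasDerivAt (fun s : ℝ => ∑ c, (w c (x + s • ee i)) ^ 2)
        (∑ c, 2 * w c x * dw i c x) 0 := by
      have := HasDerivAt.fun_sum (u := Finset.univ) (fun c _ => (hw i c x).fun_pow 2)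
      exact this.congr_deriv (by simp)
    have hs2 : HasDerivAt (fun s : ℝ => ∑ c, w c (x + s • ee i) * dw i c (x + s • ee i))
        (∑ c, (dw i c x * dw i c x + w c x * ddw i c x)) 0 := by
      have := HasDerivAt.fun_sum (u := Finset.univ) (fun c _ => (hw i c x).fun_mul (hdw i c x))
      exact this.congr_deriv (by simp)
    have h1 := ((ha i x).fun_mul hs1).fun_neg
    have h2 := ((hw i i x).fun_mul (hπ i x)).const_mul 2
    have h3 := hs2.const_mul (2 * ν)
    have := (h1.fun_sub h2).fun_add h3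
    exact this.congr_deriv (by simp [hG])
  have hint : ∀ i, ∫ x in cube, G i x = 0 :=
    fun i => uq_integral_dir i (H i) (G i) (hHper i) (hGc i) (hHd i)
  have hGi : ∀ i, IntegrableOn (G i) cube volume :=
    fun i => (hGc i).continuousOn.integrableOn_compact uq_isCompact_cube
  have hsum : ∫ x in cube, ∑ i, G i x = 0 := by
    rw [integral_finsetSum _ (fun i _ => hGi i)]
    simp [hint]
  rw [← hsum]
  refine setIntegral_mono_on ?_ ?_ uq_measurableSet_cube ?_
  · refine Continuous.integrableOn_Icc ?_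
    fun_prop
  · refine Continuous.integrableOn_Icc ?_
    exact continuous_finsetSum _ (fun i _ => hGc i)
  · intro x _
    have d1 := diva x
    have d2 := divw x
    simp only [hG, Fin.sum_univ_three] at d1 d2 ⊢
    have q : 0 ≤ ν * (dw 0 0 x ^ 2 + dw 0 1 x ^ 2 + dw 0 2 x ^ 2 + dw 1 0 x ^ 2 + dw 1 1 x ^ 2
        + dw 1 2 x ^ 2 + dw 2 0 x ^ 2 + dw 2 1 x ^ 2 + dw 2 2 x ^ 2) := by positivity
    have q1 : (da 0 x + da 1 x + da 2 x) * (w 0 x ^ 2 + w 1 x ^ 2 + w 2 x ^ 2) = 0 := by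
      rw [d1]; ring
    have q2 : (dw 0 0 x + dw 1 1 x + dw 2 2 x) * π x = 0 := by
      rw [d2]; ring
    linarith


theorem uq_bil (x y b M : ℝ) (hb : |b| ≤ M) : -(x * y * b) ≤ M * (x ^ 2 + y ^ 2) / 2 := by
  obtain ⟨h1, h2⟩ := abs_le.mp hb
  nlinarith [mul_nonneg (by linarith : 0 ≤ M + b) (sq_nonneg (x + y)),
    mul_nonneg (by linarith : 0 ≤ M - b) (sq_nonneg (x - y))]

theorem uq_per_du {ν : ℝ} {f : ℝ → V3 → V3} {T : ℝ} {u : ℝ → V3 → V3} {p : ℝ → V3 → ℝ}
    {ut : ℝ → V3 → V3} {du ddu : Fin 3 → ℝ → V3 → V3} {dp : Fin 3 → ℝ → V3 → ℝ}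
    (h : IsClassical ν f T u p ut du ddu dp) (i : Fin 3) {t : ℝ} (ht : t ∈ Icc 0 T) :
    Per (du i t) := by
  intro x j
  have a := h.hdu i t ht (x + ee j)
  have b := h.hdu i t ht x
  have hfun : (fun s : ℝ => u t (x + ee j + s • ee i)) = fun s : ℝ => u t (x + s • ee i) := by
    funext s
    rw [show x + ee j + s • ee i = (x + s • ee i) + ee j by abel]
    exact h.per_u t ht _ j
  rw [hfun] at a
  exact a.unique b

/-- energy density of the difference -/
def uqE (u1 u2 : ℝ → V3 → V3) (t : ℝ) (x : V3) : ℝ := ∑ c, (u1 t x c - u2 t x c) ^ 2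

/-- its time derivative -/
def uqEt (u1 u2 ut1 ut2 : ℝ → V3 → V3) (t : ℝ) (x : V3) : ℝ :=
  ∑ c, 2 * (u1 t x c - u2 t x c) * (ut1 t x c - ut2 t x c)

theorem uq_comp_cont {g : ℝ → V3 → V3} {T : ℝ}
    (h : ContinuousOn (fun q : ℝ × V3 => g q.1 q.2) (Icc 0 T ×ˢ univ)) (c : Fin 3) :
    ContinuousOn (fun q : ℝ × V3 => g q.1 q.2 c) (Icc 0 T ×ˢ univ) :=
  (continuous_apply c).comp_continuousOn h

theorem uq_energy_ineq {ν : ℝ} (hν : 0 ≤ ν) {f : ℝ → V3 → V3} {T : ℝ}
    {u1 u2 : ℝ → V3 → V3} {p1 p2 : ℝ → V3 → ℝ}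
    {ut1 ut2 : ℝ → V3 → V3} {du1 ddu1 du2 ddu2 : Fin 3 → ℝ → V3 → V3}
    {dp1 dp2 : Fin 3 → ℝ → V3 → ℝ}
    (h1 : IsClassical ν f T u1 p1 ut1 du1 ddu1 dp1)
    (h2 : IsClassical ν f T u2 p2 ut2 du2 ddu2 dp2)
    (M : ℝ) (hM : ∀ t ∈ Icc 0 T, ∀ x ∈ cube, ∀ i c, |du2 i t x c| ≤ M)
    {t : ℝ} (ht : t ∈ Icc 0 T) :
    ∫ x in cube, uqEt u1 u2 ut1 ut2 t x ≤ 6 * M * ∫ x in cube, uqE u1 u2 t x := by
  -- continuity of the slices
  have cu1 : ∀ c, Continuous (fun x => u1 t x c) :=
    fun c => uq_slice_x (g := fun t x => u1 t x c) (uq_comp_cont h1.cont_u c) ht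
  have cu2 : ∀ c, Continuous (fun x => u2 t x c) :=
    fun c => uq_slice_x (g := fun t x => u2 t x c) (uq_comp_cont h2.cont_u c) ht
  have cut1 : ∀ c, Continuous (fun x => ut1 t x c) :=
    fun c => uq_slice_x (g := fun t x => ut1 t x c) (uq_comp_cont h1.cont_ut c) ht
  have cut2 : ∀ c, Continuous (fun x => ut2 t x c) :=
    fun c => uq_slice_x (g := fun t x => ut2 t x c) (uq_comp_cont h2.cont_ut c) ht
  have cdu1 : ∀ i c, Continuous (fun x => du1 i t x c) :=
    fun i c => uq_slice_x (g := fun t x => du1 i t x c) (uq_comp_cont (h1.cont_du i) c) ht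
  have cdu2 : ∀ i c, Continuous (fun x => du2 i t x c) :=
    fun i c => uq_slice_x (g := fun t x => du2 i t x c) (uq_comp_cont (h2.cont_du i) c) ht
  have cddu1 : ∀ i c, Continuous (fun x => ddu1 i t x c) :=
    fun i c => uq_slice_x (g := fun t x => ddu1 i t x c) (uq_comp_cont (h1.cont_ddu i) c) ht
  have cddu2 : ∀ i c, Continuous (fun x => ddu2 i t x c) :=
    fun i c => uq_slice_x (g := fun t x => ddu2 i t x c) (uq_comp_cont (h2.cont_ddu i) c) ht
  have cp1 : Continuous (p1 t) := uq_slice_x h1.cont_p ht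
  have cp2 : Continuous (p2 t) := uq_slice_x h2.cont_p ht
  have cdp1 : ∀ i, Continuous (dp1 i t) := fun i => uq_slice_x (h1.cont_dp i) ht
  have cdp2 : ∀ i, Continuous (dp2 i t) := fun i => uq_slice_x (h2.cont_dp i) ht
  have hsp := uq_space ν hν (fun i x => u1 t x i) (fun c x => u1 t x c - u2 t x c)
    (fun x => p1 t x - p2 t x) (fun i x => du1 i t x i)
    (fun i c x => du1 i t x c - du2 i t x c) (fun i c x => ddu1 i t x c - ddu2 i t x c)
    (fun i x => dp1 i t x - dp2 i t x)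
    (fun i x j => by simp only [h1.per_u t ht x j])
    (fun c x j => by simp only [h1.per_u t ht x j, h2.per_u t ht x j])
    (fun x j => by simp only [h1.per_p t ht x j, h2.per_p t ht x j])
    (fun i c x j => by simp only [uq_per_du h1 i ht x j, uq_per_du h2 i ht x j])
    (fun i => cu1 i) (fun c => (cu1 c).sub (cu2 c)) (cp1.sub cp2) (fun i => cdu1 i i)
    (fun i c => (cdu1 i c).sub (cdu2 i c)) (fun i c => (cddu1 i c).sub (cddu2 i c))
    (fun i => (cdp1 i).sub (cdp2 i))
    (fun i x => (hasDerivAt_pi.mp (h1.hdu i t ht x)) i)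
    (fun i c x => ((hasDerivAt_pi.mp (h1.hdu i t ht x)) c).fun_sub
      ((hasDerivAt_pi.mp (h2.hdu i t ht x)) c))
    (fun i c x => ((hasDerivAt_pi.mp (h1.hddu i t ht x)) c).fun_sub
      ((hasDerivAt_pi.mp (h2.hddu i t ht x)) c))
    (fun i x => (h1.hdp i t ht x).fun_sub (h2.hdp i t ht x))
    (fun x => h1.div t ht x)
    (fun x => by
      have a := h1.div t ht x
      have b := h2.div t ht x
      rw [Finset.sum_sub_distrib, a, b, sub_zero])
  obtain ⟨R, hR⟩ : ∃ R : V3 → ℝ, R = fun x => (2 * ∑ c, (u1 t x c - u2 t x c) *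
    (-(∑ i, u1 t x i * (du1 i t x c - du2 i t x c)) - (dp1 c t x - dp2 c t x)
      + ν * ∑ i, (ddu1 i t x c - ddu2 i t x c))) := ⟨_, rfl⟩
  have hsp' : ∫ x in cube, R x ≤ 0 := by rw [hR]; exact hsp
  have cR : Continuous R := by
    rw [hR]; fun_prop
  have cE : Continuous (uqE u1 u2 t) := by
    unfold uqE; fun_prop
  have cEt : Continuous (uqEt u1 u2 ut1 ut2 t) := by
    unfold uqEt; fun_prop
  have hpt : ∀ x ∈ cube, uqEt u1 u2 ut1 ut2 t x ≤ R x + 6 * M * uqE u1 u2 t x := by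
    intro x hx
    have m1 : ∀ c, ut1 t x c = -(∑ i, u1 t x i * du1 i t x c) - dp1 c t x
        + ν * ∑ i, ddu1 i t x c + f t x c := by
      intro c; linarith [h1.mom t ht x c]
    have m2 : ∀ c, ut2 t x c = -(∑ i, u2 t x i * du2 i t x c) - dp2 c t x
        + ν * ∑ i, ddu2 i t x c + f t x c := by
      intro c; linarith [h2.mom t ht x c]
    have b := fun c i => uq_bil (u1 t x c - u2 t x c) (u1 t x i - u2 t x i) (du2 i t x c) M
      (hM t ht x hx i c)
    have b00 := b 0 0
    have b01 := b 0 1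
    have b02 := b 0 2
    have b10 := b 1 0
    have b11 := b 1 1
    have b12 := b 1 2
    have b20 := b 2 0
    have b21 := b 2 1
    have b22 := b 2 2
    simp only [uqEt, uqE, hR, m1, m2, Fin.sum_univ_three]
    linarith
  have iR : IntegrableOn R cube volume := cR.continuousOn.integrableOn_compact uq_isCompact_cube
  have iE : IntegrableOn (fun x => 6 * M * uqE u1 u2 t x) cube volume :=
    (cE.const_mul _).continuousOn.integrableOn_compact uq_isCompact_cube
  have iEt : IntegrableOn (uqEt u1 u2 ut1 ut2 t) cube volume :=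
    cEt.continuousOn.integrableOn_compact uq_isCompact_cube
  calc ∫ x in cube, uqEt u1 u2 ut1 ut2 t x
      ≤ ∫ x in cube, (R x + 6 * M * uqE u1 u2 t x) :=
        setIntegral_mono_on iEt (iR.add iE) uq_measurableSet_cube hpt
    _ = (∫ x in cube, R x) + 6 * M * ∫ x in cube, uqE u1 u2 t x := by
        rw [integral_add iR iE, integral_const_mul (6 * M) (uqE u1 u2 t)]
    _ ≤ 6 * M * ∫ x in cube, uqE u1 u2 t x := by
        linarith


theorem uq_energy_zero {ν : ℝ} (hν : 0 ≤ ν) {f : ℝ → V3 → V3} {T : ℝ}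
    {u1 u2 : ℝ → V3 → V3} {p1 p2 : ℝ → V3 → ℝ}
    {ut1 ut2 : ℝ → V3 → V3} {du1 ddu1 du2 ddu2 : Fin 3 → ℝ → V3 → V3}
    {dp1 dp2 : Fin 3 → ℝ → V3 → ℝ}
    (h1 : IsClassical ν f T u1 p1 ut1 du1 ddu1 dp1)
    (h2 : IsClassical ν f T u2 p2 ut2 du2 ddu2 dp2)
    {t : ℝ} (ht : t ∈ Icc 0 T) :
    ∫ x in cube, uqE u1 u2 t x = 0 := by
  -- a bound for the gradient of u2
  have hb : ∀ i c, ∃ M, ∀ t ∈ Icc 0 T, ∀ x ∈ cube, ‖du2 i t x c‖ ≤ M :=
    fun i c => uq_bound (g := fun t x => du2 i t x c) (uq_comp_cont (h2.cont_du i) c)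
  choose Mf hMf using hb
  set M : ℝ := ∑ i, ∑ c, |Mf i c| with hMdef
  have hM : ∀ t ∈ Icc 0 T, ∀ x ∈ cube, ∀ i c, |du2 i t x c| ≤ M := by
    intro t ht x hx i c
    have e1 : |du2 i t x c| ≤ |Mf i c| := (hMf i c t ht x hx).trans (le_abs_self _)
    have e2 : |Mf i c| ≤ ∑ c, |Mf i c| :=
      Finset.single_le_sum (f := fun c => |Mf i c|) (fun _ _ => abs_nonneg _) (Finset.mem_univ c)
    have e3 : ∑ c, |Mf i c| ≤ M :=
      Finset.single_le_sum (f := fun i => ∑ c, |Mf i c|)
        (fun _ _ => Finset.sum_nonneg (fun _ _ => abs_nonneg _)) (Finset.mem_univ i)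
    linarith
  -- joint continuity
  have cE : ContinuousOn (fun q : ℝ × V3 => uqE u1 u2 q.1 q.2) (Icc 0 T ×ˢ univ) := by
    unfold uqE
    refine continuousOn_finsetSum _ (fun c _ => ?_)
    exact ((uq_comp_cont h1.cont_u c).sub (uq_comp_cont h2.cont_u c)).pow 2
  have cEt : ContinuousOn (fun q : ℝ × V3 => uqEt u1 u2 ut1 ut2 q.1 q.2) (Icc 0 T ×ˢ univ) := by
    unfold uqEt
    refine continuousOn_finsetSum _ (fun c _ => ?_)
    exact (((uq_comp_cont h1.cont_u c).sub (uq_comp_cont h2.cont_u c)).const_mul 2).mul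
      ((uq_comp_cont h1.cont_ut c).sub (uq_comp_cont h2.cont_ut c))
  have hd : ∀ t ∈ Icc 0 T, ∀ x, HasDerivWithinAt (fun s => uqE u1 u2 s x)
      (uqEt u1 u2 ut1 ut2 t x) (Icc 0 T) t := by
    intro t ht x
    unfold uqE uqEt
    have := HasDerivWithinAt.fun_sum (u := Finset.univ) (fun c _ =>
      (((hasDerivWithinAt_pi.mp (h1.hut t ht x)) c).fun_sub
        ((hasDerivWithinAt_pi.mp (h2.hut t ht x)) c)).fun_pow 2)
    exact this.congr_deriv (by simp)
  set E : ℝ → ℝ := fun t => ∫ x in cube, uqE u1 u2 t x with hE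
  have hEc : ContinuousOn E (Icc 0 T) := uq_param_cont cE
  have hEd : ∀ t ∈ Ioo 0 T, HasDerivAt E (∫ x in cube, uqEt u1 u2 ut1 ut2 t x) t :=
    fun t ht => uq_param_deriv cE cEt hd ht
  have hE0 : E 0 = 0 := by
    simp only [hE, uqE, h1.init, h2.init]
    simp
  have hEnn : ∀ t, 0 ≤ E t := by
    intro t
    exact integral_nonneg (fun x => Finset.sum_nonneg (fun c _ => sq_nonneg _))
  set g : ℝ → ℝ := fun t => E t * Real.exp (-(6 * M) * t) with hg
  have hgd : ∀ t ∈ Ioo 0 T, HasDerivAt g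
      ((∫ x in cube, uqEt u1 u2 ut1 ut2 t x) * Real.exp (-(6 * M) * t)
        + E t * (Real.exp (-(6 * M) * t) * (-(6 * M)))) t := by
    intro t ht
    have e1 : HasDerivAt (fun t : ℝ => Real.exp (-(6 * M) * t))
        (Real.exp (-(6 * M) * t) * (-(6 * M))) t := by
      have := ((hasDerivAt_id t).const_mul (-(6 * M))).exp
      simpa using this
    exact (hEd t ht).fun_mul e1
  have hanti : AntitoneOn g (Icc 0 T) := by
    refine antitoneOn_of_deriv_nonpos (convex_Icc 0 T) ?_ ?_ ?_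
    · exact hEc.mul (Continuous.continuousOn (by fun_prop))
    · rw [interior_Icc]
      exact fun t ht => (hgd t ht).differentiableAt.differentiableWithinAt
    · rw [interior_Icc]
      intro t ht
      rw [(hgd t ht).deriv]
      have key := uq_energy_ineq hν h1 h2 M hM (Ioo_subset_Icc_self ht)
      have hpos := Real.exp_pos (-(6 * M) * t)
      have : (∫ x in cube, uqEt u1 u2 ut1 ut2 t x) * Real.exp (-(6 * M) * t)
          + E t * (Real.exp (-(6 * M) * t) * (-(6 * M)))
          = ((∫ x in cube, uqEt u1 u2 ut1 ut2 t x) - 6 * M * E t) * Real.exp (-(6 * M) * t) := by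
        ring
      rw [this]
      exact mul_nonpos_of_nonpos_of_nonneg (by simpa [hE] using sub_nonpos.mpr key) hpos.le
  have h0T : (0 : ℝ) ∈ Icc 0 T := ⟨le_refl _, ht.1.trans ht.2⟩
  have hle := hanti h0T ht ht.1
  simp only [hg, hE0, zero_mul] at hle
  have hpos := Real.exp_pos (-(6 * M) * t)
  have : E t ≤ 0 := by
    by_contra hcon
    push Not at hcon
    have := mul_pos hcon hpos
    linarith
  exact le_antisymm this (hEnn t)


theorem uq_cube_closure : cube ⊆ closure (interior cube) := by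
  have hne : (interior cube).Nonempty := by
    refine ⟨fun _ => 1 / 2, ?_⟩
    rw [mem_interior_iff_mem_nhds]
    exact pi_Icc_mem_nhds (fun i => by simp) (fun i => by simp; norm_num)
  have hc : Convex ℝ cube := convex_Icc (0 : V3) 1
  rw [hc.closure_interior_eq_closure_of_nonempty_interior hne]
  exact subset_closure

theorem uq_per_int {α : Type*} {g : V3 → α} (hper : Per g) (i : Fin 3) (n : ℤ) (x : V3) :
    g (x + (n : ℝ) • ee i) = g x := by
  induction n using Int.induction_on with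
  | zero => simp
  | succ k ih =>
    have : x + ((k + 1 : ℤ) : ℝ) • ee i = (x + ((k : ℤ) : ℝ) • ee i) + ee i := by
      push_cast
      rw [add_smul, one_smul, add_assoc]
    rw [this, hper, ih]
  | pred k ih =>
    have h2 := hper (x + ((-(k : ℤ) - 1 : ℤ) : ℝ) • ee i) i
    have : (x + ((-(k : ℤ) - 1 : ℤ) : ℝ) • ee i) + ee i = x + ((-(k : ℤ) : ℤ) : ℝ) • ee i := by
      push_cast
      rw [sub_smul, one_smul, add_assoc, sub_add_cancel]
    rw [this, ih] at h2
    exact h2.symm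

theorem uq_per_reduce {α : Type*} {g : V3 → α} (hper : Per g) (x : V3) :
    ∃ y ∈ cube, g x = g y := by
  refine ⟨fun j => Int.fract (x j), ⟨fun j => Int.fract_nonneg _, fun j => (Int.fract_lt_one _).le⟩, ?_⟩
  have : x = (((fun j => Int.fract (x j)) + ((⌊x 0⌋ : ℤ) : ℝ) • ee 0) + ((⌊x 1⌋ : ℤ) : ℝ) • ee 1)
      + ((⌊x 2⌋ : ℤ) : ℝ) • ee 2 := by
    funext j
    fin_cases j <;> simp [ee]
  conv_lhs => rw [this]
  rw [uq_per_int hper, uq_per_int hper, uq_per_int hper]

theorem uq_velocity {ν : ℝ} (hν : 0 ≤ ν) {f : ℝ → V3 → V3} {T : ℝ}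
    {u1 u2 : ℝ → V3 → V3} {p1 p2 : ℝ → V3 → ℝ}
    {ut1 ut2 : ℝ → V3 → V3} {du1 ddu1 du2 ddu2 : Fin 3 → ℝ → V3 → V3}
    {dp1 dp2 : Fin 3 → ℝ → V3 → ℝ}
    (h1 : IsClassical ν f T u1 p1 ut1 du1 ddu1 dp1)
    (h2 : IsClassical ν f T u2 p2 ut2 du2 ddu2 dp2)
    {t : ℝ} (ht : t ∈ Icc 0 T) (x : V3) : u1 t x = u2 t x := by
  have hz := uq_energy_zero hν h1 h2 ht
  have cu1 : ∀ c, Continuous (fun x => u1 t x c) :=
    fun c => uq_slice_x (g := fun t x => u1 t x c) (uq_comp_cont h1.cont_u c) ht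
  have cu2 : ∀ c, Continuous (fun x => u2 t x c) :=
    fun c => uq_slice_x (g := fun t x => u2 t x c) (uq_comp_cont h2.cont_u c) ht
  have cE : Continuous (uqE u1 u2 t) := by
    unfold uqE; fun_prop
  have hae := (setIntegral_eq_zero_iff_of_nonneg_ae
    (Eventually.of_forall (fun x => Finset.sum_nonneg (fun c _ => sq_nonneg _)))
    (cE.continuousOn.integrableOn_compact uq_isCompact_cube)).mp hz
  have hon : EqOn (uqE u1 u2 t) 0 cube :=
    Measure.eqOn_of_ae_eq hae cE.continuousOn continuousOn_const uq_cube_closure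
  have hper : Per (fun x => u1 t x - u2 t x) := by
    intro x j
    simp only [h1.per_u t ht x j, h2.per_u t ht x j]
  obtain ⟨y, hy, hxy⟩ := uq_per_reduce hper x
  have hy0 : u1 t y - u2 t y = 0 := by
    funext c
    have := hon hy
    simp only [uqE, Pi.zero_apply] at this
    have h3 := (Finset.sum_eq_zero_iff_of_nonneg (fun c _ => sq_nonneg _)).mp this c
      (Finset.mem_univ c)
    simpa using h3
  have : u1 t x - u2 t x = 0 := by rw [← hy0]; exact hxy
  exact sub_eq_zero.mp this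


/-- a function all of whose coordinate derivatives vanish is constant -/
theorem uq_const_of_dirs (π : V3 → ℝ)
    (h : ∀ i x, HasDerivAt (fun s : ℝ => π (x + s • ee i)) 0 0) (x : V3) : π x = π 0 := by
  have hline : ∀ (i : Fin 3) (x : V3) (a : ℝ), π (x + a • ee i) = π x := by
    intro i x a
    have hd : ∀ s : ℝ, HasDerivAt (fun s : ℝ => π (x + s • ee i)) 0 s := by
      intro s
      have h1 := h i (x + s • ee i)
      have h2 : (fun r : ℝ => π (x + s • ee i + r • ee i)) = fun r : ℝ => π (x + (s + r) • ee i) := by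
        funext r
        rw [add_smul, add_assoc]
      rw [h2] at h1
      have h3 := HasDerivAt.comp_sub_const s s (f := fun r : ℝ => π (x + (s + r) • ee i))
        (f' := 0) (by rw [sub_self]; exact h1)
      simpa using h3
    have := is_const_of_deriv_eq_zero (f := fun s : ℝ => π (x + s • ee i))
      (fun s => (hd s).differentiableAt) (fun s => (hd s).deriv) a 0
    simpa using this
  have : x = (((0 : V3) + (x 0) • ee 0) + (x 1) • ee 1) + (x 2) • ee 2 := by
    funext j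
    fin_cases j <;> simp [ee]
  conv_lhs => rw [this]
  rw [hline, hline, hline]

theorem uq_real_volume_cube : (volume : Measure V3).real cube = 1 := by
  unfold cube Measure.real
  rw [Real.volume_Icc_pi]
  simp

theorem classical_unique (nu : ℝ) (hnu : 0 < nu) (f : ℝ → V3 → V3) (T : ℝ) (hT : 0 < T)
    (u1 u2 : ℝ → V3 → V3) (p1 p2 : ℝ → V3 → ℝ)
    (h1 : ClassicalSol nu f T u1 p1) (h2 : ClassicalSol nu f T u2 p2) :
    ∀ t ∈ Icc 0 T, ∀ x, u1 t x = u2 t x ∧ p1 t x = p2 t x := by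
  obtain ⟨ut1, du1, ddu1, dp1, h1⟩ := h1
  obtain ⟨ut2, du2, ddu2, dp2, h2⟩ := h2
  have hu : ∀ t ∈ Icc 0 T, ∀ x, u1 t x = u2 t x := fun t ht x => uq_velocity hnu.le h1 h2 ht x
  intro t ht x
  refine ⟨hu t ht x, ?_⟩
  have hut : ∀ x, ut1 t x = ut2 t x := by
    intro x
    have a := h1.hut t ht x
    have b := h2.hut t ht x
    have b' : HasDerivWithinAt (fun s => u1 s x) (ut2 t x) (Icc 0 T) t :=
      b.congr (fun s hs => hu s hs x) (hu t ht x)
    exact UniqueDiffWithinAt.eq_deriv _ (uniqueDiffOn_Icc hT t ht) a b'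
  have hdu : ∀ i x, du1 i t x = du2 i t x := by
    intro i x
    have a := h1.hdu i t ht x
    have b := h2.hdu i t ht x
    have e : (fun s : ℝ => u1 t (x + s • ee i)) = fun s : ℝ => u2 t (x + s • ee i) := by
      funext s; exact hu t ht _
    rw [e] at a
    exact a.unique b
  have hddu : ∀ i x, ddu1 i t x = ddu2 i t x := by
    intro i x
    have a := h1.hddu i t ht x
    have b := h2.hddu i t ht x
    have e : (fun s : ℝ => du1 i t (x + s • ee i)) = fun s : ℝ => du2 i t (x + s • ee i) := by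
      funext s; exact hdu i _
    rw [e] at a
    exact a.unique b
  have hdp : ∀ c x, dp1 c t x = dp2 c t x := by
    intro c x
    have a := h1.mom t ht x c
    have b := h2.mom t ht x c
    simp only [hut, hdu, hddu, hu t ht x] at a
    linarith
  have hconst := uq_const_of_dirs (fun x => p1 t x - p2 t x) (fun i x => by
    have := (h1.hdp i t ht x).fun_sub (h2.hdp i t ht x)
    rw [hdp, sub_self] at this
    exact this)
  have cp1 : Continuous (p1 t) := uq_slice_x h1.cont_p ht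
  have cp2 : Continuous (p2 t) := uq_slice_x h2.cont_p ht
  have hint : ∫ x in cube, (p1 t x - p2 t x) = 0 := by
    rw [integral_sub (cp1.continuousOn.integrableOn_compact uq_isCompact_cube)
      (cp2.continuousOn.integrableOn_compact uq_isCompact_cube), h1.mean t ht, h2.mean t ht,
      sub_zero]
  have hint2 : ∫ x in cube, (p1 t x - p2 t x) = p1 t 0 - p2 t 0 := by
    have : (fun x => p1 t x - p2 t x) = fun _ => p1 t 0 - p2 t 0 := by
      funext x; exact hconst x
    rw [this, setIntegral_const, uq_real_volume_cube, one_smul]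
  have h0 : p1 t 0 - p2 t 0 = 0 := by rw [← hint2, hint]
  have := hconst x
  linarith


end Vale.Agent.Lib.P113
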