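import Vale.Agent.Lib.P113.Dyn
open Set Filter Topology
open scoped ContDiff

namespace Vale.Agent.Lib.P113

theorem contDiff_comp_cfr (g : ℝ → ℝ) (hg : ContDiff ℝ ∞ g) (h0 : ∀ y, y ≤ -(1 / 8) → g y = 0)
    (h1 : ∀ y, 5 / 8 ≤ y → g y = 0) : ContDiff ℝ ∞ (fun u => g (cfr u)) := by
  have h := contDiff_comp_fract (fun y => g (y - 1 / 4)) (hg.comp (contDiff_id.sub contDiff_const))
    1 (1 / 8) one_pos (by norm_num) (fun y hy => h0 _ (by linarith)) (fun y hy => h1 _ (by linarith))
  have h2 := h.comp (contDiff_id.add (contDiff_const (c := (1 / 4 : ℝ))))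
  simpa [cfr, Function.comp_def] using h2

theorem pulse_contDiff (j : ℕ) : ContDiff ℝ ∞ (pulse j) := by
  have h := contDiff_comp_fract pls pls_contDiff 14 13 (by norm_num) (by norm_num)
    (fun y hy => pls_zero_of_nonpos hy) (fun y hy => pls_zero_of_one_le (by linarith))
  have h2 := h.comp ((contDiff_id.sub (contDiff_const (c := (2 : ℝ)))).sub
    (contDiff_const (c := (j : ℝ))))
  exact h2

namespace Machine
variable {M : Machine}

theorem num_nonneg (π : M.Sym3) : 0 ≤ num π := by
  rw [num_eq]; positivity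

theorem num_le (π : M.Sym3) : num π ≤ M.k ^ 3 / 2 := by
  unfold num
  have hk := k_ge (M := M)
  have h1 := val_le π.1
  have h2 := val_le π.2.1
  have h3 := val_le π.2.2
  have a0 : (0 : ℝ) ≤ val π.1 := Nat.cast_nonneg _
  have e1 : (val π.1 : ℝ) * M.k + val π.2.1 ≤ M.k ^ 2 / 2 - 1 := by nlinarith
  have e2 : ((val π.1 : ℝ) * M.k + val π.2.1) * M.k ≤ (M.k ^ 2 / 2 - 1) * M.k :=
    mul_le_mul_of_nonneg_right e1 (by linarith)
  nlinarith

theorem k3_ge : (8 : ℝ) ≤ M.k ^ 3 := by
  have hk := k_ge (M := M)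
  have : (2 : ℝ) ^ 3 ≤ M.k ^ 3 := pow_le_pow_left₀ (by norm_num) hk 3
  linarith

theorem plat_num_left (π : M.Sym3) (y : ℝ) (hy : y ≤ -(1 / 8)) : plat (M.k ^ 3 * y - num π) = 0 := by
  apply plat_zero_left
  have := k3_ge (M := M)
  have := num_nonneg π
  nlinarith

theorem plat_num_right (π : M.Sym3) (y : ℝ) (hy : 5 / 8 ≤ y) : plat (M.k ^ 3 * y - num π) = 0 := by
  apply plat_zero_right
  have := k3_ge (M := M)
  have := num_le π
  nlinarith

theorem plat_num_contDiff (π : M.Sym3) : ContDiff ℝ ∞ (fun y : ℝ => plat (M.k ^ 3 * y - num π)) :=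
  plat_contDiff.comp ((contDiff_const.mul contDiff_id).sub contDiff_const)

theorem bl_contDiff (π : M.Sym3) : ContDiff ℝ ∞ (bl π) :=
  contDiff_comp_cfr _ (plat_num_contDiff π) (plat_num_left π) (plat_num_right π)

theorem popn_contDiff (j : ℕ) (π : M.Sym3) : ContDiff ℝ ∞ (popn j π) := by
  rcases j with _ | _ | _ | j
  · exact contDiff_id
  · exact (contDiff_const.mul contDiff_id).sub contDiff_const
  · exact (contDiff_const.mul ((contDiff_const.mul contDiff_id).sub contDiff_const)).sub
      contDiff_const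
  · exact (contDiff_const.mul ((contDiff_const.mul
      ((contDiff_const.mul contDiff_id).sub contDiff_const)).sub contDiff_const)).sub contDiff_const

theorem pushl_contDiff (pre : List M.Sym) : ContDiff ℝ ∞ (pushl pre) := by
  induction pre with
  | nil => exact contDiff_id
  | cons a pre ih =>
    have : pushl (a :: pre) = fun y => ((val a : ℝ) + pushl pre y) / M.k := by
      funext y; simp [pushl]
    rw [this]
    exact (contDiff_const.add ih).div_const _

theorem atom_contDiff (π : M.Sym3) (pre : List M.Sym) (j : ℕ) :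
    ContDiff ℝ ∞ (fun u => bl π u * pushl pre (popn j π (cfr u))) := by
  apply contDiff_comp_cfr (fun y => plat (M.k ^ 3 * y - num π) * pushl pre (popn j π y))
  · exact (plat_num_contDiff π).mul ((pushl_contDiff pre).comp (popn_contDiff j π))
  · intro y hy; rw [plat_num_left π y hy, zero_mul]
  · intro y hy; rw [plat_num_right π y hy, zero_mul]

theorem term_contDiff (e : M.Entry) (π ρ : M.Sym3) (a b : Fin 3) :
    ContDiff ℝ ∞ (fun x : V3 => term e π ρ (x a) (x b)) := by
  have ha : ContDiff ℝ ∞ (fun x : V3 => x a) := contDiff_apply ℝ ℝ a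
  have hb : ContDiff ℝ ∞ (fun x : V3 => x b) := contDiff_apply ℝ ℝ b
  rcases e with _ | ⟨_ | _, pre, j⟩
  · exact contDiff_const
  · exact ((atom_contDiff π pre j).comp ha).mul ((bl_contDiff ρ).comp hb)
  · exact ((bl_contDiff π).comp ha).mul ((atom_contDiff ρ pre j).comp hb)

theorem Op.G_contDiff (o : M.Op) : ContDiff ℝ ∞ o.G := by
  unfold Op.G
  apply contDiff_const.mul
  apply ContDiff.sum
  intro π _
  apply ContDiff.sum
  intro ρ _
  exact term_contDiff _ _ _ _ _

theorem Gdet_contDiff : ContDiff ℝ ∞ M.Gdet := by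
  unfold Gdet
  apply contDiff_const.mul
  apply ContDiff.sum
  intro ρ _
  split_ifs
  · exact (bl_contDiff ρ).comp (contDiff_apply ℝ ℝ 1)
  · exact contDiff_const

theorem progG_contDiff (j : Fin 12) : ContDiff ℝ ∞ (M.progG j) := by
  refine Fin.cases ?_ (fun i => ?_) j
  · exact Gdet_contDiff
  · exact (M.ops i).G_contDiff

theorem vel_contDiff (w : List M.S) : ContDiff ℝ ∞ (fun p : ℝ × V3 => M.vel w p.1 p.2) := by
  unfold vel
  apply ContDiff.add
  · apply ContDiff.add
    · exact (pls_contDiff.comp contDiff_fst).smul contDiff_const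
    · exact (pls_contDiff.comp (contDiff_fst.sub contDiff_const)).smul contDiff_const
  · apply ContDiff.sum
    intro j _
    exact ((pulse_contDiff j).comp contDiff_fst).smul
      (((progG_contDiff j).comp contDiff_snd).smul contDiff_const)

end Machine
end Vale.Agent.Lib.P113
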